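import Vale.Agent.Lib.PolyTime.Bits

/-!
The algorithm, as functions on lists. The input is a binary word `w`.
-/

namespace Vale.Agent.P324

open List

/-- The number of jobs. -/
def nW (w : List Bool) : ℕ := (w.takeWhile fun b => b).length

/-- The adjacency matrix. -/
def arcW (w : List Bool) (u v : ℕ) : Bool := w.getD (nW w + 1 + u * nW w + v) false

/-- The bound on the length. -/
def lenW (w : List Bool) : ℕ := Vale.Agent.Lib.PolyTime.val (w.drop (nW w + 1 + nW w * nW w))

/-- One step in the computation of the predecessors of `v`. -/
def predStep (w : List Bool) (v : ℕ) (S : List ℕ) : List ℕ :=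
  (range (nW w)).filter fun u => arcW w u v || S.any fun x => arcW w u x

/-- The list of predecessors of `v` in the transitive closure. -/
def predL (w : List Bool) (v : ℕ) : List ℕ := (predStep w v)^[nW w] []

/-- All predecessor lists. -/
def preds (w : List Bool) : List (List ℕ) := (range (nW w)).map (predL w)

/-- The order relation given by predecessor lists. -/
def ltL (P : List (List ℕ)) (u v : ℕ) : Bool := decide (u ∈ P.getD v [])

/-- The rank of a job. -/
def rkL (P : List (List ℕ)) (v : ℕ) : ℕ := (P.getD v []).length * P.length + v

/-- The atomic sets that belong to the job `v`. -/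
def atomsAt (P : List (List ℕ)) (v : ℕ) : List (List ℕ) :=
  [[v], (range P.length).filter fun u => ltL P u v, (range P.length).filter fun u => ltL P v u,
    (range P.length).filter fun u => decide (rkL P u < rkL P v),
    (range P.length).filter fun u => decide (rkL P v < rkL P u)]

/-- The atomic sets. -/
def atoms (P : List (List ℕ)) : List (List ℕ) :=
  [] :: range P.length :: (range P.length).flatMap (atomsAt P)

/-- Union, intersection and difference. -/
def ops (A B : List ℕ) : List (List ℕ) :=
  [A ++ B, A.filter fun x => decide (x ∈ B), A.filter fun x => !decide (x ∈ B)]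

/-- One more level of set operations. -/
def grow (F : List (List ℕ)) : List (List ℕ) :=
  F ++ F.flatMap fun A => F.flatMap fun B => ops A B

/-- All sets given by terms of depth at most `k`. -/
def terms (P : List (List ℕ)) : ℕ → List (List ℕ)
  | 0 => atoms P
  | k + 1 => grow (terms P k)

/-- Entries of the table: a set of jobs, a length, a schedule. -/
abbrev Entry := List ℕ × ℕ × List ℕ

/-- The schedule obtained from two entries and a slot between them. -/
def glue (n : ℕ) (e₁ : Entry) (S : List ℕ) (e₂ : Entry) : List ℕ :=
  (range n).map fun i =>
    if i ∈ e₁.1 then e₁.2.2.getD i 0 else if i ∈ S then e₁.2.1 + 1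
    else e₂.2.2.getD i 0 + e₁.2.1 + 1

/-- `τ` schedules the jobs of `X` in the slots `1, …, l`, and all its values are at most `l`. -/
def valid (m : ℕ) (P : List (List ℕ)) (X : List ℕ) (l : ℕ) (τ : List ℕ) : Bool :=
  ((range P.length).all fun i => decide (τ.getD i 0 ≤ l) && (!decide (i ∈ X) || decide (0 < τ.getD i 0)))
  && ((range (l + 1)).all fun t =>
    decide (((range P.length).filter fun i => decide (i ∈ X) && decide (τ.getD i 0 = t)).length ≤ m))
  && ((range P.length).all fun v => (range P.length).all fun u =>
    !decide (u ∈ X) || !decide (v ∈ X) || !ltL P u v || decide (τ.getD u 0 < τ.getD v 0))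

/-- All glued schedules. -/
def glued (n : ℕ) (F : List (List ℕ)) (tab : List Entry) : List (List ℕ) :=
  tab.flatMap fun e₁ => F.flatMap fun S => tab.map fun e₂ => glue n e₁ S e₂

/-- The new entries of length `l`: at most one for each set of the family. -/
def fresh (m : ℕ) (P F : List (List ℕ)) (tab : List Entry) (l : ℕ) : List Entry :=
  F.flatMap fun X =>
    (((glued P.length F tab).filter fun τ => valid m P X l τ).take 1).map fun τ => (X, l, τ)

/-- The table of all entries of length at most `l`. -/
def table (m : ℕ) (P F : List (List ℕ)) (l : ℕ) : List Entry :=
  Nat.rec (motive := fun _ => List Entry) [([], 0, replicate P.length 0)]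
    (fun j tab => tab ++ fresh m P F tab (j + 1)) l

/-- The first entry that schedules all jobs. -/
def best (m K : ℕ) (P : List (List ℕ)) : Option Entry :=
  (table m P (terms P K) P.length).find? fun e => (range P.length).all fun i => decide (i ∈ e.1)

/-- The decision procedure. -/
def decideW (m K : ℕ) (w : List Bool) : Bool :=
  match best m K (preds w) with
  | none => false
  | some e => decide (e.2.1 ≤ lenW w)

/-- The schedule that is returned. -/
def schedW (m K : ℕ) (w : List Bool) : List ℕ :=
  match best m K (preds w) with
  | none => []
  | some e => e.2.2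

end Vale.Agent.P324
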