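import Mathlib.Data.Fintype.Basic
import Mathlib.Data.Finset.Card
import Mathlib.Algebra.BigOperators.Group.Finset.Basic
import Mathlib.Data.Int.LeastGreatest

/-!
Scheduling of unit jobs with precedence constraints: schedules on open time intervals, job sets
with short descriptions, and decomposition trees.
-/

namespace Vale.Agent.P324

open Finset

variable {V : Type*} [Fintype V] [DecidableEq V]

/-- Job sets described by terms of bounded depth. -/
inductive Term (lt : V → V → Prop) [DecidableRel lt] (r : V → ℤ) : ℕ → Finset V → Prop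
  | empty : Term lt r 0 ∅
  | univ : Term lt r 0 univ
  | single (v : V) : Term lt r 0 {v}
  | pre (v : V) : Term lt r 0 (univ.filter fun u => lt u v)
  | post (v : V) : Term lt r 0 (univ.filter fun u => lt v u)
  | low (v : V) : Term lt r 0 (univ.filter fun u => r u < r v)
  | high (v : V) : Term lt r 0 (univ.filter fun u => r v < r u)
  | succ {k : ℕ} {A : Finset V} : Term lt r k A → Term lt r (k + 1) A
  | union {k : ℕ} {A B : Finset V} : Term lt r k A → Term lt r k B → Term lt r (k + 1) (A ∪ B)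
  | inter {k : ℕ} {A B : Finset V} : Term lt r k A → Term lt r k B → Term lt r (k + 1) (A ∩ B)
  | sdiff {k : ℕ} {A B : Finset V} : Term lt r k A → Term lt r k B → Term lt r (k + 1) (A \ B)

/-- Decomposition trees: the jobs of an interval of `l₁ + 1 + l₂` slots are those of an interval
of `l₁` slots, one slot, and those of an interval of `l₂` slots; all parts belong to `F`. -/
inductive Dec (lt : V → V → Prop) (m : ℕ) (F : Finset V → Prop) : Finset V → ℕ → Prop
  | nil : Dec lt m F ∅ 0
  | node {X₁ S X₂ : Finset V} {l₁ l₂ : ℕ} : F X₁ → F S → F X₂ → Dec lt m F X₁ l₁ →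
      Dec lt m F X₂ l₂ → S.card ≤ m → (∀ a ∈ S, ∀ b ∈ S, ¬ lt a b) → Disjoint X₁ S →
      Disjoint X₁ X₂ → Disjoint S X₂ → (∀ a ∈ X₁, ∀ b ∈ S, ¬ lt b a) →
      (∀ a ∈ X₁, ∀ b ∈ X₂, ¬ lt b a) → (∀ a ∈ S, ∀ b ∈ X₂, ¬ lt b a) →
      Dec lt m F (X₁ ∪ S ∪ X₂) (l₁ + 1 + l₂)

/-- `τ` schedules the jobs of `X` on `m` machines in the slots strictly between `s` and `t`. -/
structure Sch (lt : V → V → Prop) (m : ℕ) (X : Finset V) (s t : ℤ) (τ : V → ℤ) : Prop where
  lo : ∀ v ∈ X, s < τ v
  hi : ∀ v ∈ X, τ v < t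
  cap : ∀ i, (X.filter fun v => τ v = i).card ≤ m
  mono : ∀ u ∈ X, ∀ v ∈ X, lt u v → τ u < τ v

end Vale.Agent.P324
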