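import Vale.Agent.P324.AlgoPT
import Vale.Agent.P324.CoreDefs

/-!
The table of the algorithm finds every decomposition tree whose parts are given by short terms.
-/

namespace Vale.Agent.P324

open List

/-- The set of jobs that a list stands for. -/
def sem (n : ℕ) (A : List ℕ) : Finset (Fin n) := Finset.univ.filter fun i => i.val ∈ A

theorem mem_sem {n : ℕ} {A : List ℕ} {i : Fin n} : i ∈ sem n A ↔ i.val ∈ A := by simp [sem]

/-- The order given by predecessor lists, on `Fin n`. -/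
def ltF (n : ℕ) (P : List (List ℕ)) (u v : Fin n) : Prop := ltL P u v = true

instance (n : ℕ) (P : List (List ℕ)) : DecidableRel (ltF n P) := fun u v =>
  inferInstanceAs (Decidable (ltL P u v = true))

/-- The rank on `Fin n`. -/
def rkF (n : ℕ) (P : List (List ℕ)) (v : Fin n) : ℤ := (rkL P v : ℕ)

variable {n m : ℕ} {P : List (List ℕ)}

theorem terms_mono {k : ℕ} {A : List ℕ} (h : A ∈ terms P k) : A ∈ terms P (k + 1) :=
  mem_append_left _ h

theorem ops_mem {k : ℕ} {A B C : List ℕ} (hA : A ∈ terms P k) (hB : B ∈ terms P k)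
    (hC : C ∈ ops A B) : C ∈ terms P (k + 1) :=
  mem_append_right _ (mem_flatMap.2 ⟨A, hA, mem_flatMap.2 ⟨B, hB, hC⟩⟩)

theorem atomsAt_mem (hn : P.length = n) (v : Fin n) {A : List ℕ} (h : A ∈ atomsAt P v) :
    A ∈ terms P 0 :=
  mem_cons_of_mem _ (mem_cons_of_mem _ (mem_flatMap.2 ⟨v, mem_range.2 (hn ▸ v.2), h⟩))

theorem sem_filter (hn : P.length = n) (p : ℕ → Bool) (q : Fin n → Prop) [DecidablePred q]
    (h : ∀ i : Fin n, p i = true ↔ q i) :
    sem n ((range P.length).filter p) = Finset.univ.filter q := by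
  ext i
  simp [mem_sem, hn, h]

theorem exists_of_term (hn : P.length = n) {k : ℕ} {X : Finset (Fin n)}
    (h : Term (ltF n P) (rkF n P) k X) : ∃ A ∈ terms P k, sem n A = X := by
  induction h with
  | empty => exact ⟨[], mem_cons_self, by ext i; simp [mem_sem]⟩
  | univ =>
    exact ⟨range P.length, mem_cons_of_mem _ mem_cons_self, by ext i; simp [mem_sem, hn]⟩
  | single v =>
    exact ⟨[v], atomsAt_mem hn v (by simp [atomsAt]), by ext i; simp [mem_sem, Fin.ext_iff]⟩
  | pre v =>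
    exact ⟨_, atomsAt_mem hn v (mem_cons_of_mem _ mem_cons_self),
      sem_filter hn _ _ fun i => Iff.rfl⟩
  | post v =>
    exact ⟨_, atomsAt_mem hn v (mem_cons_of_mem _ (mem_cons_of_mem _ mem_cons_self)),
      sem_filter hn _ _ fun i => Iff.rfl⟩
  | low v =>
    exact ⟨_, atomsAt_mem hn v
      (mem_cons_of_mem _ (mem_cons_of_mem _ (mem_cons_of_mem _ mem_cons_self))),
      sem_filter hn _ _ fun i => by simp [rkF]⟩
  | high v =>
    exact ⟨_, atomsAt_mem hn v
      (mem_cons_of_mem _ (mem_cons_of_mem _ (mem_cons_of_mem _ (mem_cons_of_mem _ mem_cons_self)))),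
      sem_filter hn _ _ fun i => by simp [rkF]⟩
  | succ _ ih =>
    obtain ⟨A, hA, e⟩ := ih
    exact ⟨A, terms_mono hA, e⟩
  | union _ _ ih ih' =>
    obtain ⟨A, hA, rfl⟩ := ih
    obtain ⟨B, hB, rfl⟩ := ih'
    exact ⟨_, ops_mem hA hB mem_cons_self, by ext i; simp [mem_sem]⟩
  | inter _ _ ih ih' =>
    obtain ⟨A, hA, rfl⟩ := ih
    obtain ⟨B, hB, rfl⟩ := ih'
    exact ⟨_, ops_mem hA hB (mem_cons_of_mem _ mem_cons_self), by ext i; simp [mem_sem]⟩
  | sdiff _ _ ih ih' =>
    obtain ⟨A, hA, rfl⟩ := ih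
    obtain ⟨B, hB, rfl⟩ := ih'
    exact ⟨_, ops_mem hA hB (mem_cons_of_mem _ (mem_cons_of_mem _ mem_cons_self)),
      by ext i; simp [mem_sem]⟩

/-- The meaning of the validity test. -/
structure Good (n m : ℕ) (P : List (List ℕ)) (X : Finset (Fin n)) (l : ℕ) (τ : Fin n → ℕ) :
    Prop where
  le : ∀ i, τ i ≤ l
  pos : ∀ i ∈ X, 0 < τ i
  cap : ∀ t, (X.filter fun i => τ i = t).card ≤ m
  mono : ∀ u ∈ X, ∀ v ∈ X, ltF n P u v → τ u < τ v

theorem length_filter_range (n : ℕ) (p : ℕ → Bool) :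
    ((range n).filter p).length = (Finset.univ.filter fun i : Fin n => p i = true).card := by
  have h : ((range n).filter p).toFinset =
      (Finset.univ.filter fun i : Fin n => p i = true).map Fin.valEmbedding := by
    ext i
    simp only [mem_toFinset, mem_filter, mem_range, Finset.mem_map, Finset.mem_filter,
      Finset.mem_univ, true_and, Fin.valEmbedding_apply]
    constructor
    · rintro ⟨h1, h2⟩
      exact ⟨⟨i, h1⟩, h2, rfl⟩
    · rintro ⟨j, h2, rfl⟩
      exact ⟨j.2, h2⟩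
  rw [← toFinset_card_of_nodup (nodup_range.filter _), h, Finset.card_map]

theorem valid_iff (hn : P.length = n) {X τ : List ℕ} {l : ℕ} :
    valid m P X l τ = true ↔ Good n m P (sem n X) l fun i => τ.getD i 0 := by
  have hc : ∀ t, ((range n).filter fun i => decide (i ∈ X) && decide (τ.getD i 0 = t)).length =
      ((sem n X).filter fun i : Fin n => τ.getD i 0 = t).card := by
    intro t
    rw [length_filter_range]
    congr 1
    ext i
    simp [mem_sem]
  simp only [valid, hn, Bool.and_eq_true, all_eq_true, mem_range, decide_eq_true_eq, hc,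
    Bool.or_eq_true, Bool.not_eq_true', decide_eq_false_iff_not]
  constructor
  · rintro ⟨⟨h1, h2⟩, h3⟩
    refine ⟨fun i => (h1 i i.2).1, fun i hi => (h1 i i.2).2.resolve_left fun h => h (mem_sem.1 hi),
      fun t => ?_, fun u hu v hv huv => ?_⟩
    · by_cases ht : t < l + 1
      · exact h2 t ht
      · rw [Finset.filter_eq_empty_iff.2 fun i _ h => ?_]
        · exact Nat.zero_le _
        · have := (h1 i i.2).1
          omega
    · rcases h3 v v.2 u u.2 with ((h | h) | h) | h
      · exact absurd (mem_sem.1 hu) h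
      · exact absurd (mem_sem.1 hv) h
      · rw [show ltL P u v = true from huv] at h
        exact absurd h (by decide)
      · exact h
  · intro h
    refine ⟨⟨fun i hi => ⟨h.le ⟨i, hi⟩, ?_⟩, fun t _ => h.cap t⟩, fun v hv u hu => ?_⟩
    · by_cases hX : i ∈ X
      · exact Or.inr (h.pos ⟨i, hi⟩ (mem_sem.2 hX))
      · exact Or.inl hX
    · by_cases hu' : u ∈ X
      · by_cases hv' : v ∈ X
        · cases e : ltL P u v
          · exact Or.inl (Or.inr rfl)
          · exact Or.inr (h.mono ⟨u, hu⟩ (mem_sem.2 hu') ⟨v, hv⟩ (mem_sem.2 hv') e)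
        · exact Or.inl (Or.inl (Or.inr hv'))
      · exact Or.inl (Or.inl (Or.inl hu'))

theorem good_of_mem_table (hn : P.length = n) {F : List (List ℕ)} {l : ℕ} {e : Entry}
    (h : e ∈ table m P F l) :
    e.2.1 ≤ l ∧ e.2.2.length = n ∧ Good n m P (sem n e.1) e.2.1 fun i => e.2.2.getD i 0 := by
  induction l with
  | zero =>
    simp only [table, Nat.rec_zero, mem_singleton] at h
    subst h
    refine ⟨le_rfl, by simp [hn], fun i => ?_, fun i hi => ?_, fun t => ?_, fun u hu => ?_⟩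
    · simp [getD_eq_getElem?_getD, getElem?_replicate]
      split <;> simp
    · simp [mem_sem] at hi
    · rw [show sem n [] = ∅ by ext i; simp [mem_sem]]
      simp
    · simp [mem_sem] at hu
  | succ l ih =>
    rw [table_succ, mem_append] at h
    rcases h with h | h
    · exact ⟨(ih h).1.trans (Nat.le_succ l), (ih h).2⟩
    · obtain ⟨-, h2, h3, h4⟩ := mem_fresh h
      exact ⟨h2.le, (length_of_mem_glued h3).trans hn, h2 ▸ (valid_iff hn).1 h4⟩

theorem table_mono {F : List (List ℕ)} {l l' : ℕ} (h : l ≤ l') {e : Entry}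
    (he : e ∈ table m P F l) : e ∈ table m P F l' := by
  induction h with
  | refl => exact he
  | step _ ih => rw [table_succ]; exact mem_append_left _ ih

theorem getD_glue (e₁ e₂ : Entry) (S : List ℕ) (i : Fin n) :
    (glue n e₁ S e₂).getD i 0 = if i.val ∈ e₁.1 then e₁.2.2.getD i 0
      else if i.val ∈ S then e₁.2.1 + 1 else e₂.2.2.getD i 0 + e₁.2.1 + 1 := by
  rw [getD_eq_getElem _ _ (by simp [glue])]
  simp [glue]

theorem good_glue {X₁ S X₂ : Finset (Fin n)} {l₁ l₂ : ℕ} {τ₁ τ₂ τ : Fin n → ℕ}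
    (h₁ : Good n m P X₁ l₁ τ₁) (h₂ : Good n m P X₂ l₂ τ₂) (hS : S.card ≤ m)
    (ha : ∀ a ∈ S, ∀ b ∈ S, ¬ ltF n P a b) (d₁ : Disjoint X₁ S) (d₂ : Disjoint X₁ X₂)
    (d₃ : Disjoint S X₂) (b₁ : ∀ a ∈ X₁, ∀ b ∈ S, ¬ ltF n P b a)
    (b₂ : ∀ a ∈ X₁, ∀ b ∈ X₂, ¬ ltF n P b a) (b₃ : ∀ a ∈ S, ∀ b ∈ X₂, ¬ ltF n P b a)
    (hτ : ∀ i, τ i = if i ∈ X₁ then τ₁ i else if i ∈ S then l₁ + 1 else τ₂ i + l₁ + 1) :
    Good n m P (X₁ ∪ S ∪ X₂) (l₁ + 1 + l₂) τ := by
  have e₁ : ∀ i ∈ X₁, τ i = τ₁ i := fun i hi => by rw [hτ, if_pos hi]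
  have e₂ : ∀ i ∈ S, τ i = l₁ + 1 := fun i hi => by
    rw [hτ, if_neg (Finset.disjoint_right.1 d₁ hi), if_pos hi]
  have e₃ : ∀ i ∈ X₂, τ i = τ₂ i + l₁ + 1 := fun i hi => by
    rw [hτ, if_neg (Finset.disjoint_right.1 d₂ hi), if_neg (Finset.disjoint_right.1 d₃ hi)]
  refine ⟨fun i => ?_, fun i hi => ?_, fun t => ?_, fun u hu v hv huv => ?_⟩
  · have := h₁.le i
    have := h₂.le i
    rw [hτ]
    split_ifs <;> omega
  · simp only [Finset.mem_union] at hi
    rcases hi with (hi | hi) | hi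
    · rw [e₁ i hi]; exact h₁.pos i hi
    · rw [e₂ i hi]; omega
    · rw [e₃ i hi]; omega
  · rcases lt_trichotomy t (l₁ + 1) with ht | ht | ht
    · refine le_trans (Finset.card_le_card fun i hi => ?_) (h₁.cap t)
      simp only [Finset.mem_filter, Finset.mem_union] at hi ⊢
      rcases hi with ⟨(hi | hi) | hi, h⟩
      · exact ⟨hi, by rw [← e₁ i hi, h]⟩
      · have := e₂ i hi; omega
      · have := e₃ i hi; omega
    · refine le_trans (Finset.card_le_card fun i hi => ?_) hS
      simp only [Finset.mem_filter, Finset.mem_union] at hi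
      rcases hi with ⟨(hi | hi) | hi, h⟩
      · have := e₁ i hi; have := h₁.le i; omega
      · exact hi
      · have := e₃ i hi; have := h₂.pos i hi; omega
    · refine le_trans (Finset.card_le_card fun i hi => ?_) (h₂.cap (t - (l₁ + 1)))
      simp only [Finset.mem_filter, Finset.mem_union] at hi ⊢
      rcases hi with ⟨(hi | hi) | hi, h⟩
      · have := e₁ i hi; have := h₁.le i; omega
      · have := e₂ i hi; omega
      · have := e₃ i hi
        exact ⟨hi, by omega⟩
  · simp only [Finset.mem_union] at hu hv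
    rcases hu with (hu | hu) | hu <;> rcases hv with (hv | hv) | hv
    · rw [e₁ u hu, e₁ v hv]; exact h₁.mono u hu v hv huv
    · have := h₁.le u; rw [e₁ u hu, e₂ v hv]; omega
    · have := h₁.le u; rw [e₁ u hu, e₃ v hv]; omega
    · exact absurd huv (b₁ v hv u hu)
    · exact absurd huv (ha u hu v hv)
    · have := h₂.pos v hv; rw [e₂ u hu, e₃ v hv]; omega
    · exact absurd huv (b₂ v hv u hu)
    · exact absurd huv (b₃ v hv u hu)
    · have := h₂.mono u hu v hv huv; rw [e₃ u hu, e₃ v hv]; omega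

theorem exists_mem_table (hn : P.length = n) {F : List (List ℕ)} {Fam : Finset (Fin n) → Prop}
    (hF : ∀ X, Fam X → ∃ A ∈ F, sem n A = X) {X : Finset (Fin n)} {l : ℕ}
    (h : Dec (ltF n P) m Fam X l) (hX : Fam X) :
    ∃ e ∈ table m P F l, sem n e.1 = X ∧ e.2.1 = l := by
  induction h with
  | nil =>
    exact ⟨([], 0, replicate P.length 0), mem_singleton.2 rfl, by ext i; simp [mem_sem], rfl⟩
  | @node X₁ S X₂ l₁ l₂ f₁ fS f₂ _ _ hS ha d₁ d₂ d₃ b₁ b₂ b₃ ih₁ ih₂ =>
    obtain ⟨e₁, m₁, s₁, q₁⟩ := ih₁ f₁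
    obtain ⟨e₂, m₂, s₂, q₂⟩ := ih₂ f₂
    obtain ⟨B, hB, sB⟩ := hF S fS
    obtain ⟨A, hA, sA⟩ := hF _ hX
    have g₁ := (good_of_mem_table hn m₁).2.2
    have g₂ := (good_of_mem_table hn m₂).2.2
    rw [s₁, q₁] at g₁
    rw [s₂, q₂] at g₂
    have hv : valid m P A (l₁ + l₂ + 1) (glue P.length e₁ B e₂) = true := by
      rw [valid_iff hn, sA, show l₁ + l₂ + 1 = l₁ + 1 + l₂ by omega]
      refine good_glue g₁ g₂ hS ha d₁ d₂ d₃ b₁ b₂ b₃ fun i => ?_
      rw [hn, getD_glue, ← s₁, ← sB, q₁]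
      simp only [mem_sem]
    have hg : glue P.length e₁ B e₂ ∈ glued P.length F (table m P F (l₁ + l₂)) :=
      mem_flatMap.2 ⟨e₁, table_mono (by omega) m₁, mem_flatMap.2 ⟨B, hB,
        mem_map.2 ⟨e₂, table_mono (by omega) m₂, rfl⟩⟩⟩
    have hne := ne_nil_of_mem (mem_filter.2 ⟨hg, hv⟩)
    obtain ⟨τ, rest, hτ⟩ := exists_cons_of_ne_nil hne
    refine ⟨(A, l₁ + l₂ + 1, τ), ?_, sA, by dsimp only; omega⟩
    rw [show l₁ + 1 + l₂ = l₁ + l₂ + 1 by omega, table_succ]
    refine mem_append_right _ (mem_flatMap.2 ⟨A, hA, mem_map.2 ⟨τ, ?_, rfl⟩⟩)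
    rw [hτ]
    simp

theorem find_table_min {F : List (List ℕ)} (hn : P.length = n) (p : Entry → Bool) {l : ℕ}
    {e e' : Entry} (h : (table m P F l).find? p = some e) (h' : e' ∈ table m P F l)
    (hp : p e' = true) : e.2.1 ≤ e'.2.1 := by
  induction l with
  | zero =>
    have := (good_of_mem_table hn (mem_of_find?_eq_some h)).1
    omega
  | succ l ih =>
    rw [table_succ] at h h'
    rw [find?_append] at h
    rcases mem_append.1 h' with h' | h'
    · cases e0 : (table m P F l).find? p with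
      | none => exact absurd hp (by simpa using find?_eq_none.1 e0 e' h')
      | some e₀ =>
        rw [e0] at h
        exact ih (by simpa using e0.trans (by simpa using h)) h'
    · have h1 := (mem_fresh h').2.1
      have h2 : e ∈ table m P F (l + 1) := by
        rw [table_succ]
        exact mem_of_find?_eq_some (by rw [find?_append]; exact h)
      have := (good_of_mem_table hn h2).1
      omega

theorem best_sound (hn : P.length = n) {K : ℕ} {e : Entry} (h : best m K P = some e) :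
    e.2.2.length = n ∧ Good n m P Finset.univ e.2.1 fun i => e.2.2.getD i 0 := by
  have h1 := good_of_mem_table hn (mem_of_find?_eq_some h)
  have h2 := find?_some h
  have h3 : sem n e.1 = Finset.univ := by
    ext i
    simp only [all_eq_true, mem_range, decide_eq_true_eq] at h2
    simp [mem_sem, h2 i (hn ▸ i.2)]
  exact ⟨h1.2.1, h3 ▸ h1.2.2⟩

theorem best_complete (hn : P.length = n) {K l : ℕ} (hl : l ≤ n)
    (h : Dec (ltF n P) m (Term (ltF n P) (rkF n P) K) Finset.univ l) :
    ∃ e, best m K P = some e ∧ e.2.1 ≤ l := by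
  have hu : ∀ k, Term (ltF n P) (rkF n P) k Finset.univ := fun k => by
    induction k with
    | zero => exact Term.univ
    | succ k ih => exact Term.succ ih
  obtain ⟨e', m', s', q'⟩ := exists_mem_table hn (fun X hX => exists_of_term hn hX) h (hu K)
  have m'' := table_mono (hl.trans hn.ge) m'
  have hp : ((range P.length).all fun i => decide (i ∈ e'.1)) = true := by
    simp only [all_eq_true, mem_range, decide_eq_true_eq]
    intro i hi
    exact (mem_sem (i := ⟨i, hn ▸ hi⟩)).1 (s' ▸ Finset.mem_univ _)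
  cases e0 : best m K P with
  | none => exact absurd hp (by simpa using find?_eq_none.1 e0 e' m'')
  | some e => exact ⟨e, rfl, q' ▸ find_table_min hn _ e0 m'' hp⟩

end Vale.Agent.P324
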