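import Vale.Agent.P324.Algo
import Vale.Agent.Lib.PolyTime.Lists2
import Vale.Agent.Lib.PolyTime.Lists3
import Vale.Agent.Lib.PolyTime.Bitwise
import Vale.Agent.Lib.PolyTime.NatArith2

/-!
The algorithm runs in polynomial time.
-/

namespace Vale.Agent.P324

open Vale.Agent.Lib.PolyTime List

variable {A : Set Word} {α : Type*} [Enc α]

theorem pt_nW {w : α → List Bool} (hw : PT A w) : PT A (fun a => nW (w a)) :=
  (PT.takeWhile (f := fun _ b => b) hw PT.snd').length

theorem pbd_nW {w : α → List Bool} (hw : PT A w) : PBd (fun a => nW (w a)) :=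
  PBd.length (PT.takeWhile (A := A) (f := fun _ b => b) hw PT.snd')

theorem pt_arcW {w : α → List Bool} {u v : α → ℕ} (hw : PT A w) (hu : PT A u) (hv : PT A v) :
    PT A (fun a => arcW (w a) (u a) (v a)) :=
  PT.getD hw ((((pt_nW hw).add (PT.const 1)).add (hu.mul (pt_nW hw))).add hv) (PT.const false)

theorem pt_lenW {w : α → List Bool} (hw : PT A w) : PT A (fun a => lenW (w a)) :=
  PT.valList (PT.drop hw (((pt_nW hw).add (PT.const 1)).add ((pt_nW hw).mul (pt_nW hw))))

theorem pt_rangeN {w : α → List Bool} (hw : PT A w) : PT A (fun a => range (nW (w a))) :=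
  PT.range (pt_nW hw) (pbd_nW hw)

theorem pt_predStep {w : α → List Bool} {v : α → ℕ} {S : α → List ℕ} (hw : PT A w) (hv : PT A v)
    (hS : PT A S) : PT A (fun a => predStep (w a) (v a) (S a)) := by
  refine PT.filter (f := fun a u => arcW (w a) u (v a) || (S a).any fun x => arcW (w a) u x)
    (pt_rangeN hw) (PT.or (pt_arcW (hw.comp PT.fst') PT.snd' (hv.comp PT.fst')) ?_)
  exact PT.any (f := fun (p : α × ℕ) x => arcW (w p.1) p.2 x) (hS.comp PT.fst')
    (pt_arcW (hw.comp PT.fst'.fst) PT.fst'.snd PT.snd')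

theorem pt_predL {w : α → List Bool} {v : α → ℕ} (hw : PT A w) (hv : PT A v) :
    PT A (fun a => predL (w a) (v a)) := by
  refine PT.iterate' (step := fun a S => predStep (w a) (v a) S) (pt_nW hw) (pbd_nW hw)
    (PT.const []) (pt_predStep (hw.comp PT.fst') (hv.comp PT.fst') PT.snd')
    (pt_rangeN hw).pbd fun a j _ => ?_
  cases j with
  | zero => exact Nat.zero_le _
  | succ j =>
    rw [Function.iterate_succ_apply']
    exact esize_le_of_sublist List.filter_sublist

theorem pt_preds {w : α → List Bool} (hw : PT A w) : PT A (fun a => preds (w a)) :=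
  PT.map (f := fun a v => predL (w a) v) (pt_rangeN hw) (pt_predL (hw.comp PT.fst') PT.snd')

section

variable {P : α → List (List ℕ)}

theorem pt_ltL {u v : α → ℕ} (hP : PT A P) (hu : PT A u) (hv : PT A v) :
    PT A (fun a => ltL (P a) (u a) (v a)) :=
  PT.mem (PT.getD hP hv (PT.const [])) hu

theorem pt_rkL {v : α → ℕ} (hP : PT A P) (hv : PT A v) : PT A (fun a => rkL (P a) (v a)) :=
  (((PT.getD hP hv (PT.const [])).length).mul hP.length).add hv

theorem pt_rangeP (hP : PT A P) : PT A (fun a => range (P a).length) :=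
  PT.range hP.length (PBd.length hP)

theorem pt_atomsAt {v : α → ℕ} (hP : PT A P) (hv : PT A v) :
    PT A (fun a => atomsAt (P a) (v a)) := by
  have hP' : PT A (fun p : α × ℕ => P p.1) := hP.comp PT.fst'
  have hv' : PT A (fun p : α × ℕ => v p.1) := hv.comp PT.fst'
  refine PT.cons (PT.cons hv PT.nil) (PT.cons ?_ (PT.cons ?_ (PT.cons ?_ (PT.cons ?_ PT.nil))))
  · exact PT.filter (f := fun a u => ltL (P a) u (v a)) (pt_rangeP hP) (pt_ltL hP' PT.snd' hv')
  · exact PT.filter (f := fun a u => ltL (P a) (v a) u) (pt_rangeP hP) (pt_ltL hP' hv' PT.snd')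
  · exact PT.filter (f := fun a u => decide (rkL (P a) u < rkL (P a) (v a))) (pt_rangeP hP)
      (PT.lt (pt_rkL hP' PT.snd') (pt_rkL hP' hv'))
  · exact PT.filter (f := fun a u => decide (rkL (P a) (v a) < rkL (P a) u)) (pt_rangeP hP)
      (PT.lt (pt_rkL hP' hv') (pt_rkL hP' PT.snd'))

theorem pt_atoms (hP : PT A P) : PT A (fun a => atoms (P a)) :=
  PT.cons PT.nil (PT.cons (pt_rangeP hP)
    (PT.flatMap (f := fun a v => atomsAt (P a) v) (pt_rangeP hP)
      (pt_atomsAt (hP.comp PT.fst') PT.snd')))

theorem pt_ops {X Y : α → List ℕ} (hX : PT A X) (hY : PT A Y) : PT A (fun a => ops (X a) (Y a)) := by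
  refine PT.cons (hX.append hY) (PT.cons ?_ (PT.cons ?_ PT.nil))
  · exact PT.filter (f := fun a x => decide (x ∈ Y a)) hX (PT.mem (hY.comp PT.fst') PT.snd')
  · exact PT.filter (f := fun a x => !decide (x ∈ Y a)) hX (PT.mem (hY.comp PT.fst') PT.snd').not

theorem pt_grow {F : α → List (List ℕ)} (hF : PT A F) : PT A (fun a => grow (F a)) := by
  refine hF.append (PT.flatMap (f := fun a X => (F a).flatMap fun Y => ops X Y) hF ?_)
  exact PT.flatMap (f := fun (p : α × List ℕ) Y => ops p.2 Y) (hF.comp PT.fst')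
    (pt_ops PT.fst'.snd PT.snd')

theorem pt_terms (hP : PT A P) (k : ℕ) : PT A (fun a => terms (P a) k) := by
  induction k with
  | zero => exact pt_atoms hP
  | succ k ih => exact pt_grow ih

theorem pt_glue {n : α → ℕ} {e₁ e₂ : α → Entry} {S : α → List ℕ} (hn : PT A n) (hb : PBd n)
    (h₁ : PT A e₁) (hS : PT A S) (h₂ : PT A e₂) :
    PT A (fun a => glue (n a) (e₁ a) (S a) (e₂ a)) := by
  have h₁' : PT A (fun p : α × ℕ => e₁ p.1) := h₁.comp PT.fst'
  have h₂' : PT A (fun p : α × ℕ => e₂ p.1) := h₂.comp PT.fst'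
  refine PT.map (f := fun a i => if i ∈ (e₁ a).1 then (e₁ a).2.2.getD i 0
    else if i ∈ S a then (e₁ a).2.1 + 1 else (e₂ a).2.2.getD i 0 + (e₁ a).2.1 + 1)
    (PT.range hn hb) ?_
  refine PT.ite (PT.mem h₁'.fst PT.snd') (PT.getD h₁'.snd.snd PT.snd' (PT.const 0)) ?_
  refine PT.ite (PT.mem (hS.comp PT.fst') PT.snd') (h₁'.snd.fst.add (PT.const 1)) ?_
  exact ((PT.getD h₂'.snd.snd PT.snd' (PT.const 0)).add h₁'.snd.fst).add (PT.const 1)

theorem pt_valid (m : ℕ) {X τ : α → List ℕ} {l : α → ℕ} (hP : PT A P) (hX : PT A X) (hl : PT A l)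
    (hb : PBd l) (hτ : PT A τ) : PT A (fun a => valid m (P a) (X a) (l a) (τ a)) := by
  refine PT.and (PT.and ?_ ?_) ?_
  · refine PT.all (f := fun a i => decide ((τ a).getD i 0 ≤ l a) &&
      (!decide (i ∈ X a) || decide (0 < (τ a).getD i 0))) (pt_rangeP hP) ?_
    have h : PT A (fun p : α × ℕ => (τ p.1).getD p.2 0) :=
      PT.getD (hτ.comp PT.fst') PT.snd' (PT.const 0)
    exact PT.and (PT.le h (hl.comp PT.fst'))
      (PT.or (PT.mem (hX.comp PT.fst') PT.snd').not (PT.lt (PT.const 0) h))
  · refine PT.all (f := fun a t => decide (((range (P a).length).filter fun i =>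
      decide (i ∈ X a) && decide ((τ a).getD i 0 = t)).length ≤ m))
      (PT.range (hl.add (PT.const 1)) (hb.add (PBd.const 1))) ?_
    refine PT.le (PT.length ?_) (PT.const m)
    exact PT.filter (f := fun (p : α × ℕ) i => decide (i ∈ X p.1) && decide ((τ p.1).getD i 0 = p.2))
      (pt_rangeP (hP.comp PT.fst'))
      (PT.and (PT.mem (hX.comp PT.fst'.fst) PT.snd')
        (PT.eqNat (PT.getD (hτ.comp PT.fst'.fst) PT.snd' (PT.const 0)) PT.fst'.snd))
  · refine PT.all (f := fun a v => (range (P a).length).all fun u =>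
      !decide (u ∈ X a) || !decide (v ∈ X a) || !ltL (P a) u v ||
        decide ((τ a).getD u 0 < (τ a).getD v 0)) (pt_rangeP hP) ?_
    refine PT.all (f := fun (p : α × ℕ) u =>
      !decide (u ∈ X p.1) || !decide (p.2 ∈ X p.1) || !ltL (P p.1) u p.2 ||
        decide ((τ p.1).getD u 0 < (τ p.1).getD p.2 0)) (pt_rangeP (hP.comp PT.fst')) ?_
    have hX' : PT A (fun q : (α × ℕ) × ℕ => X q.1.1) := hX.comp PT.fst'.fst
    have hτ' : PT A (fun q : (α × ℕ) × ℕ => τ q.1.1) := hτ.comp PT.fst'.fst
    exact PT.or (PT.or (PT.or (PT.mem hX' PT.snd').not (PT.mem hX' PT.fst'.snd).not)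
      (pt_ltL (hP.comp PT.fst'.fst) PT.snd' PT.fst'.snd).not)
      (PT.lt (PT.getD hτ' PT.snd' (PT.const 0)) (PT.getD hτ' PT.fst'.snd (PT.const 0)))

theorem pt_glued {n : α → ℕ} {F : α → List (List ℕ)} {tab : α → List Entry} (hn : PT A n)
    (hb : PBd n) (hF : PT A F) (ht : PT A tab) : PT A (fun a => glued (n a) (F a) (tab a)) := by
  refine PT.flatMap (f := fun a e₁ => (F a).flatMap fun S => (tab a).map fun e₂ =>
    glue (n a) e₁ S e₂) ht ?_
  refine PT.flatMap (f := fun (p : α × Entry) S => (tab p.1).map fun e₂ => glue (n p.1) p.2 S e₂)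
    (hF.comp PT.fst') ?_
  exact PT.map (f := fun (q : (α × Entry) × List ℕ) e₂ => glue (n q.1.1) q.1.2 q.2 e₂)
    (ht.comp PT.fst'.fst)
    (pt_glue (hn.comp PT.fst'.fst.fst) (hb.comp (A := A) PT.fst'.fst.fst) PT.fst'.fst.snd
      PT.fst'.snd PT.snd')

theorem pt_fresh (m : ℕ) {F : α → List (List ℕ)} {tab : α → List Entry} {l : α → ℕ} (hP : PT A P)
    (hF : PT A F) (ht : PT A tab) (hl : PT A l) (hb : PBd l) :
    PT A (fun a => fresh m (P a) (F a) (tab a) (l a)) := by
  refine PT.flatMap (f := fun a X => (((glued (P a).length (F a) (tab a)).filter fun τ =>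
    valid m (P a) X (l a) τ).take 1).map fun τ => (X, l a, τ)) hF ?_
  refine PT.map (f := fun (p : α × List ℕ) τ => (p.2, l p.1, τ)) (PT.take ?_ (PT.const 1))
    (PT.fst'.snd.pair ((hl.comp PT.fst'.fst).pair PT.snd'))
  exact PT.filter (f := fun (p : α × List ℕ) τ => valid m (P p.1) p.2 (l p.1) τ)
    ((pt_glued hP.length (PBd.length hP) hF ht).comp PT.fst')
    (pt_valid m (hP.comp PT.fst'.fst) PT.fst'.snd (hl.comp PT.fst'.fst)
      (hb.comp (A := A) PT.fst'.fst) PT.snd')

end

theorem table_succ (m : ℕ) (P F : List (List ℕ)) (l : ℕ) :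
    table m P F (l + 1) = table m P F l ++ fresh m P F (table m P F l) (l + 1) := rfl

theorem length_fresh (m : ℕ) (P F : List (List ℕ)) (tab : List Entry) (l : ℕ) :
    (fresh m P F tab l).length ≤ F.length := by
  unfold fresh
  generalize glued P.length F tab = G
  induction F with
  | nil => simp
  | cons X F ih =>
    rw [flatMap_cons, length_append, length_map, length_take, length_cons]
    omega

theorem mem_fresh {m : ℕ} {P F : List (List ℕ)} {tab : List Entry} {l : ℕ} {e : Entry}
    (h : e ∈ fresh m P F tab l) :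
    e.1 ∈ F ∧ e.2.1 = l ∧ e.2.2 ∈ glued P.length F tab ∧ valid m P e.1 l e.2.2 = true := by
  simp only [fresh, mem_flatMap, mem_map] at h
  obtain ⟨X, hX, τ, hτ, rfl⟩ := h
  have := mem_filter.1 (mem_of_mem_take hτ)
  exact ⟨hX, rfl, this.1, this.2⟩

theorem length_of_mem_glued {n : ℕ} {F : List (List ℕ)} {tab : List Entry} {τ : List ℕ}
    (h : τ ∈ glued n F tab) : τ.length = n := by
  simp only [glued, mem_flatMap, mem_map] at h
  obtain ⟨e₁, -, S, -, e₂, -, rfl⟩ := h
  simp [glue]

theorem le_of_valid {m : ℕ} {P : List (List ℕ)} {X τ : List ℕ} {l : ℕ}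
    (h : valid m P X l τ = true) (hτ : τ.length = P.length) : ∀ x ∈ τ, x ≤ l := by
  intro x hx
  obtain ⟨i, hi, rfl⟩ := getElem_of_mem hx
  simp only [valid, Bool.and_eq_true, all_eq_true, mem_range, decide_eq_true_eq] at h
  have := (h.1.1 i (hτ ▸ hi)).1
  rwa [getD_eq_getElem _ _ hi] at this

theorem length_table (m : ℕ) (P F : List (List ℕ)) (l : ℕ) :
    (table m P F l).length ≤ 1 + l * F.length := by
  induction l with
  | zero => simp [table]
  | succ l ih =>
    rw [table_succ, length_append, Nat.succ_mul]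
    have := length_fresh m P F (table m P F l) (l + 1)
    omega

theorem esize_mem_table {m : ℕ} {P F : List (List ℕ)} {l : ℕ} {e : Entry}
    (h : e ∈ table m P F l) :
    esize e ≤ 2 * esize F + 2 * l + P.length * (2 * l + 1) + 2 := by
  induction l with
  | zero =>
    simp only [table, Nat.rec_zero, mem_singleton] at h
    subst h
    rw [esize_pair, esize_pair]
    have h1 : esize (replicate P.length 0 : List ℕ) ≤ (replicate P.length 0).length * (2 * 0 + 1) :=
      esize_list_le fun x hx => by rw [eq_of_mem_replicate hx]; exact esize_nat_le_self 0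
    have h2 := esize_nat_le_self 0
    rw [length_replicate] at h1
    rw [esize_list_nil]
    omega
  | succ l ih =>
    rw [table_succ, mem_append] at h
    rcases h with h | h
    · have := ih h
      have h3 : P.length * (2 * l + 1) ≤ P.length * (2 * (l + 1) + 1) :=
        Nat.mul_le_mul_left _ (by omega)
      omega
    · obtain ⟨h1, h2, h3, h4⟩ := mem_fresh h
      obtain ⟨X, l', τ⟩ := e
      dsimp only at h1 h2 h3 h4
      subst h2
      rw [esize_pair, esize_pair]
      have h5 := esize_le_of_mem h1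
      have h6 := esize_nat_le_self (l + 1)
      have h7 := length_of_mem_glued h3
      have h8 : esize τ ≤ τ.length * (2 * (l + 1) + 1) :=
        esize_list_le fun x hx => (esize_nat_le_self x).trans (le_of_valid h4 h7 x hx)
      rw [h7] at h8
      omega

section

variable {P : α → List (List ℕ)}

theorem pt_table (m : ℕ) {F : α → List (List ℕ)} (hP : PT A P) (hF : PT A F) :
    PT A (fun a => table m (P a) (F a) (P a).length) := by
  have hn : PBd (fun a => (P a).length) := PBd.length hP
  have key : PT A (fun a => Nat.rec (motive := fun _ => List Entry)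
      [([], 0, replicate (P a).length 0)]
      (fun j tab => tab ++ fresh m (P a) (F a) tab (min j (P a).length + 1)) (P a).length) := by
    have e : ∀ a, ∀ j ≤ (P a).length, Nat.rec (motive := fun _ => List Entry)
        [([], 0, replicate (P a).length 0)]
        (fun j tab => tab ++ fresh m (P a) (F a) tab (min j (P a).length + 1)) j =
        table m (P a) (F a) j := by
      intro a j hj
      induction j with
      | zero => rfl
      | succ j ih =>
        rw [table_succ, ← ih (by omega)]
        simp only [min_eq_left (show j ≤ (P a).length by omega)]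
    refine PT.natRec (step := fun a j tab => tab ++ fresh m (P a) (F a) tab (min j (P a).length + 1))
      hP.length hn
      (PT.cons (PT.nil.pair ((PT.const 0).pair (PT.replicate hP.length hn (PT.const 0)))) PT.nil)
      (PT.snd'.snd.append (pt_fresh m (hP.comp PT.fst') (hF.comp PT.fst') PT.snd'.snd
        ((PT.min PT.snd'.fst (hP.comp PT.fst').length).add (PT.const 1))
        (((hn.comp (A := A) PT.fst').mono fun p => min_le_right _ _).add (PBd.const 1))))
      (b := fun a => (1 + (P a).length * (F a).length) * (2 * (2 * esize (F a) + 2 * (P a).length +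
        (P a).length * (2 * (P a).length + 1) + 2) + 1))
      (((PBd.const 1).add (hn.mul (PBd.length hF))).mul (((PBd.const 2).mul
        (((((PBd.const 2).mul hF.pbd).add ((PBd.const 2).mul hn)).add
          (hn.mul (((PBd.const 2).mul hn).add (PBd.const 1)))).add (PBd.const 2))).add
        (PBd.const 1))) fun a j hj => ?_
    rw [e a j hj]
    refine (esize_list_le (B := 2 * esize (F a) + 2 * (P a).length +
      (P a).length * (2 * (P a).length + 1) + 2) fun x hx => ?_).trans ?_
    · have h1 := esize_mem_table hx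
      have h2 : (P a).length * (2 * j + 1) ≤ (P a).length * (2 * (P a).length + 1) :=
        Nat.mul_le_mul_left _ (by omega)
      omega
    · refine Nat.mul_le_mul_right _ ((length_table _ _ _ _).trans ?_)
      exact Nat.add_le_add_left (Nat.mul_le_mul_right _ hj) _
  refine key.congr fun a => ?_
  have e : ∀ j ≤ (P a).length, Nat.rec (motive := fun _ => List Entry)
      [([], 0, replicate (P a).length 0)]
      (fun j tab => tab ++ fresh m (P a) (F a) tab (min j (P a).length + 1)) j =
      table m (P a) (F a) j := by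
    intro j hj
    induction j with
    | zero => rfl
    | succ j ih =>
      rw [table_succ, ← ih (by omega)]
      simp only [min_eq_left (show j ≤ (P a).length by omega)]
  exact e _ le_rfl

theorem pt_best (m K : ℕ) (hP : PT A P) : PT A (fun a => best m K (P a)) :=
  PT.find? (f := fun a (e : Entry) => (range (P a).length).all fun i => decide (i ∈ e.1))
    (pt_table m hP (pt_terms hP K))
    (PT.all (f := fun (p : α × Entry) i => decide (i ∈ p.2.1)) (pt_rangeP (hP.comp PT.fst'))
      (PT.mem PT.fst'.snd.fst PT.snd'))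

end

theorem pt_decideW (m K : ℕ) : PT A (decideW m K) :=
  (PT.optCase (g := fun w (e : Entry) => decide (e.2.1 ≤ lenW w)) (pt_best m K (pt_preds PT.id))
    (PT.const false) (PT.le PT.snd'.snd.fst (pt_lenW PT.fst'))).congr fun w => by
      unfold decideW
      cases best m K (preds w) <;> rfl

theorem pt_schedW (m K : ℕ) : PT A (schedW m K) :=
  (PT.optCase (g := fun _ (e : Entry) => e.2.2) (pt_best m K (pt_preds PT.id))
    (PT.const []) PT.snd'.snd.snd).congr fun w => by
      unfold schedW
      cases best m K (preds w) <;> rfl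

end Vale.Agent.P324
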