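import Vale.Agent.P324.CoreDefs
import Mathlib.Data.Finset.Max
import Mathlib.Data.Fintype.Powerset
import Mathlib.Tactic.Linarith
import Mathlib.Tactic.Ring

/-!
One-sided structure theorem, part 1: slot-by-slot schedules, gluing, and the dichotomy between a
closing slot and an exchangeable job.
-/

namespace Vale.Agent.P324.Alt

open Finset

variable {V : Type*} [Fintype V] [DecidableEq V]

/-- No element of `A` lies below an element of `B`. -/
def NB (lt : V → V → Prop) (A B : Finset V) : Prop := ∀ a ∈ A, ∀ b ∈ B, ¬ lt a b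

/-- `X` can be scheduled in `l` slots of capacity `m`. -/
def PS (lt : V → V → Prop) (m : ℕ) : ℕ → Finset V → Prop
  | 0, X => X = ∅
  | l + 1, X => ∃ T, T ⊆ X ∧ T.card ≤ m ∧ NB lt X T ∧ PS lt m l (X \ T)

variable {lt : V → V → Prop} {m : ℕ}

omit [Fintype V] in
theorem PS.glue : ∀ {l₁ l₂ : ℕ} {X₁ X₂ : Finset V}, PS lt m l₁ X₁ → PS lt m l₂ X₂ →
    Disjoint X₁ X₂ → NB lt X₂ X₁ → PS lt m (l₁ + l₂) (X₁ ∪ X₂) := by
  intro l₁
  induction l₁ with
  | zero =>
    intro l₂ X₁ X₂ h₁ h₂ _ _
    have : X₁ = ∅ := h₁
    subst this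
    simpa using h₂
  | succ l ih =>
    intro l₂ X₁ X₂ h₁ h₂ hd hn
    obtain ⟨T, hT, hc, hm, hr⟩ := h₁
    have e : l + 1 + l₂ = (l + l₂) + 1 := by ring
    rw [e]
    refine ⟨T, hT.trans subset_union_left, hc, ?_, ?_⟩
    · intro a ha b hb
      rcases mem_union.1 ha with ha | ha
      · exact hm a ha b hb
      · exact hn a ha b (hT hb)
    · have e2 : (X₁ ∪ X₂) \ T = (X₁ \ T) ∪ X₂ := by
        ext w
        simp only [mem_sdiff, mem_union]
        have := fun h1 h2 => (disjoint_left.1 hd) (a := w) (hT h1) h2
        tauto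
      rw [e2]
      refine ih hr h₂ (hd.mono_left sdiff_subset) ?_
      intro a ha b hb
      exact hn a ha b (mem_sdiff.1 hb).1

omit [Fintype V] in
theorem ps_of_sch : ∀ (l : ℕ) (X : Finset V) (s : ℤ) (τ : V → ℤ),
    Sch lt m X s (s + l + 1) τ → PS lt m l X := by
  intro l
  induction l with
  | zero =>
    intro X s τ h
    show X = ∅
    refine eq_empty_of_forall_notMem fun v hv => ?_
    have h1 := h.lo v hv
    have h2 := h.hi v hv
    push_cast at h2
    omega
  | succ l ih =>
    intro X s τ h
    refine ⟨X.filter fun v => τ v = s + 1, filter_subset _ _, h.cap _, ?_, ?_⟩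
    · intro a ha b hb hab
      have h1 := h.lo a ha
      have h2 := h.mono a ha b (mem_filter.1 hb).1 hab
      have h3 := (mem_filter.1 hb).2
      omega
    · refine ih _ (s + 1) τ ⟨?_, ?_, ?_, ?_⟩
      · intro v hv
        have h1 := h.lo v (mem_sdiff.1 hv).1
        have h2 : τ v ≠ s + 1 := fun e =>
          (mem_sdiff.1 hv).2 (mem_filter.2 ⟨(mem_sdiff.1 hv).1, e⟩)
        omega
      · intro v hv
        have h1 := h.hi v (mem_sdiff.1 hv).1
        push_cast at h1
        omega
      · intro i
        exact (card_le_card (filter_subset_filter _ sdiff_subset)).trans (h.cap i)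
      · intro u hu v hv
        exact h.mono u (mem_sdiff.1 hu).1 v (mem_sdiff.1 hv).1

/-- The slot `T` in front of `W` cannot be improved by a feasible exchange with a job of `W`. -/
def Opt (lt : V → V → Prop) (m : ℕ) {α : Type*} [LinearOrder α] (Ψ : Finset V → α)
    (T W : Finset V) (l : ℕ) : Prop :=
  ∀ x ∈ T, ∀ v ∈ W, (∀ u ∈ T ∪ W, ¬ lt u v) → PS lt m l (insert x (W.erase v)) →
    Ψ (insert v (T.erase x)) ≤ Ψ T

/-- `W` is cut into an initial part, one slot and a final part. -/
structure Split (lt : V → V → Prop) (m : ℕ) (W : Finset V) (l : ℕ) (W₁ T W₂ : Finset V)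
    (l₁ l₂ : ℕ) : Prop where
  len : l = l₁ + 1 + l₂
  eq : W = W₁ ∪ T ∪ W₂
  d1 : Disjoint W₁ T
  d2 : Disjoint W₁ W₂
  d3 : Disjoint T W₂
  p1 : PS lt m l₁ W₁
  p2 : PS lt m l₂ W₂
  card : T.card ≤ m
  n0 : NB lt T T
  n1 : NB lt T W₁
  n2 : NB lt W₂ W₁
  n3 : NB lt W₂ T

theorem exists_best {α : Type*} [LinearOrder α] (Ψ : Finset V → α) {l : ℕ} {W : Finset V}
    (h : PS lt m (l + 1) W) :
    ∃ T, T ⊆ W ∧ T.card ≤ m ∧ NB lt W T ∧ PS lt m l (W \ T) ∧ Opt lt m Ψ T (W \ T) l := by
  classical
  obtain ⟨T₀, h₀⟩ := h
  obtain ⟨T, hT, hmax⟩ := exists_max_image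
    (univ.filter fun T : Finset V => T ⊆ W ∧ T.card ≤ m ∧ NB lt W T ∧ PS lt m l (W \ T)) Ψ
    ⟨T₀, mem_filter.2 ⟨mem_univ _, h₀⟩⟩
  obtain ⟨h1, h2, h3, h4⟩ := (mem_filter.1 hT).2
  refine ⟨T, h1, h2, h3, h4, ?_⟩
  intro x hx v hv hmin hps
  obtain ⟨hvW, hvT⟩ := mem_sdiff.1 hv
  refine hmax _ (mem_filter.2 ⟨mem_univ _, ?_, ?_, ?_, ?_⟩)
  · exact insert_subset hvW ((erase_subset _ _).trans h1)
  · have := card_insert_le v (T.erase x)
    have h5 := card_erase_of_mem hx
    have h6 : 0 < T.card := card_pos.2 ⟨x, hx⟩
    omega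
  · intro a ha b hb
    rcases mem_insert.1 hb with rfl | hb
    · refine hmin a ?_
      by_cases haT : a ∈ T
      · exact mem_union_left _ haT
      · exact mem_union_right _ (mem_sdiff.2 ⟨ha, haT⟩)
    · exact h3 a ha b (mem_of_mem_erase hb)
  · have e : W \ insert v (T.erase x) = insert x ((W \ T).erase v) := by
      ext w
      simp only [mem_sdiff, mem_insert, mem_erase]
      have hxv : x ≠ v := fun e => hvT (e ▸ hx)
      have hxW : x ∈ W := h1 hx
      by_cases e1 : w = x
      · subst e1; simp [hxW, hxv]
      · simp [e1]; tauto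
    rw [e]
    exact hps

/-- Either some slot, optimal for what follows it, lies above `A` and above everything before it,
or some job of `A` can replace every job of `W`. -/
theorem dicho {α : Type*} [LinearOrder α] (Ψ : Finset V → α)
    (htr : ∀ a b c, lt a b → lt b c → lt a c) (hirr : ∀ a, ¬ lt a a) :
    ∀ (l : ℕ) (W A : Finset V), PS lt m l W → Disjoint A W → NB lt W A → (A.Nonempty ∨ l ≠ 0) →
      (∃ W₁ T W₂ l₁ l₂, Split lt m W l W₁ T W₂ l₁ l₂ ∧ (∀ a ∈ A ∪ W₁, ∃ t ∈ T, lt a t) ∧
        Opt lt m Ψ T W₂ l₂) ∨
      (∃ h ∈ A, ∀ v ∈ W, PS lt m l (insert h (W.erase v))) := by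
  classical
  intro l
  induction l with
  | zero =>
    intro W A hW _ _ hne
    have : W = ∅ := hW
    subst this
    rcases hne with ⟨h, hh⟩ | hne
    · exact Or.inr ⟨h, hh, fun v hv => absurd hv (notMem_empty v)⟩
    · exact absurd rfl hne
  | succ l ih =>
    intro W A hW hAW hWA _
    obtain ⟨T, h1, h2, h3, h4, h5⟩ := exists_best Ψ hW
    by_cases hall : ∀ a ∈ A, ∃ t ∈ T, lt a t
    · refine Or.inl ⟨∅, T, W \ T, 0, l, ⟨by ring, ?_, disjoint_empty_left _, disjoint_empty_left _,
        disjoint_sdiff, rfl, h4, h2, fun a ha => h3 a (h1 ha), fun _ _ b hb => absurd hb (notMem_empty b),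
        fun _ _ b hb => absurd hb (notMem_empty b), fun a ha => h3 a (mem_sdiff.1 ha).1⟩, ?_, h5⟩
      · rw [empty_union, union_sdiff_of_subset h1]
      · intro a ha
        rw [union_empty] at ha
        exact hall a ha
    · push Not at hall
      obtain ⟨h₀, hh₀, hh₀T⟩ := hall
      -- a job of `A` which is not below `T` can replace a job of `T`
      have first : ∀ h ∈ A, (∀ t ∈ T, ¬ lt h t) → ∀ y ∈ T, ∀ Y : Finset V, Y ⊆ W →
          T.erase y ⊆ Y → PS lt m l (Y \ T.erase y) → PS lt m (l + 1) (insert h Y) := by
        intro h hh hhT y hy Y hYW hTY hps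
        have hhW : h ∉ W := disjoint_left.1 hAW hh
        refine ⟨insert h (T.erase y), insert_subset_insert _ hTY, ?_, ?_, ?_⟩
        · have := card_insert_le h (T.erase y)
          have h6 := card_erase_of_mem hy
          have h7 : 0 < T.card := card_pos.2 ⟨y, hy⟩
          omega
        · intro a ha b hb
          rcases mem_insert.1 ha with e1 | ha'
          · rcases mem_insert.1 hb with e2 | hb'
            · rw [e1, e2]; exact hirr _
            · rw [e1]; exact hhT b (mem_of_mem_erase hb')
          · rcases mem_insert.1 hb with e2 | hb'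
            · rw [e2]; exact hWA a (hYW ha') _ hh
            · exact h3 a (hYW ha') b (mem_of_mem_erase hb')
        · have e : insert h Y \ insert h (T.erase y) = Y \ T.erase y := by
            ext w
            simp only [mem_sdiff, mem_insert]
            by_cases e1 : w = h
            · subst e1
              have : w ∉ Y := fun hw => hhW (hYW hw)
              simp [this]
            · simp [e1]
          rw [e]
          exact hps
      have inT : ∀ h ∈ A, (∀ t ∈ T, ¬ lt h t) → ∀ v ∈ T,
          PS lt m (l + 1) (insert h (W.erase v)) := by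
        intro h hh hhT v hv
        refine first h hh hhT v hv _ (erase_subset _ _) (erase_subset_erase _ h1) ?_
        have e : W.erase v \ T.erase v = W \ T := by
          ext w
          simp only [mem_sdiff, mem_erase]
          by_cases e1 : w = v
          · subst e1; simp [hv]
          · simp [e1]
        rw [e]
        exact h4
      have hA' : Disjoint ((A.filter fun a => ∀ t ∈ T, ¬ lt a t) ∪ T) (W \ T) := by
        rw [disjoint_union_left]
        exact ⟨hAW.mono (filter_subset _ _) sdiff_subset, disjoint_sdiff⟩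
      have hB' : NB lt (W \ T) ((A.filter fun a => ∀ t ∈ T, ¬ lt a t) ∪ T) := by
        intro a ha b hb
        rcases mem_union.1 hb with hb | hb
        · exact hWA a (mem_sdiff.1 ha).1 b (mem_filter.1 hb).1
        · exact h3 a (mem_sdiff.1 ha).1 b hb
      rcases ih (W \ T) _ h4 hA' hB'
        (Or.inl ⟨h₀, mem_union_left _ (mem_filter.2 ⟨hh₀, hh₀T⟩)⟩) with
        ⟨W₁, T', W₂, l₁, l₂, hs, hcl, hopt⟩ | ⟨h, hh, hex⟩
      · have hsub : ∀ w, w ∈ W₁ ∨ w ∈ T' ∨ w ∈ W₂ → w ∈ W ∧ w ∉ T := by
          intro w hw
          have : w ∈ W \ T := by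
            rw [hs.eq]
            simp only [mem_union]
            tauto
          exact mem_sdiff.1 this
        have hTT' : ∀ a ∈ T, ∃ t ∈ T', lt a t := fun a ha =>
          hcl a (mem_union_left _ (mem_union_right _ ha))
        refine Or.inl ⟨T ∪ W₁, T', W₂, l₁ + 1, l₂, ⟨?_, ?_, ?_, ?_, hs.d3, ?_, hs.p2, hs.card,
          hs.n0, ?_, ?_, hs.n3⟩, ?_, hopt⟩
        · rw [hs.len]; ring
        · rw [union_assoc, union_assoc, ← union_assoc W₁, ← hs.eq, union_sdiff_of_subset h1]
        · rw [disjoint_union_left]
          exact ⟨disjoint_right.2 fun w hw => (hsub w (by tauto)).2, hs.d1⟩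
        · rw [disjoint_union_left]
          exact ⟨disjoint_right.2 fun w hw => (hsub w (by tauto)).2, hs.d2⟩
        · refine ⟨T, subset_union_left, h2, ?_, ?_⟩
          · intro a ha b hb
            rcases mem_union.1 ha with ha | ha
            · exact h3 a (h1 ha) b hb
            · exact h3 a (hsub a (by tauto)).1 b hb
          · have e : (T ∪ W₁) \ T = W₁ := by
              ext w
              simp only [mem_sdiff, mem_union]
              have := fun hw : w ∈ W₁ => (hsub w (Or.inl hw)).2
              tauto
            rw [e]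
            exact hs.p1
        · intro a ha b hb
          rcases mem_union.1 hb with hb | hb
          · exact h3 a (hsub a (by tauto)).1 b hb
          · exact hs.n1 a ha b hb
        · intro a ha b hb
          rcases mem_union.1 hb with hb | hb
          · exact h3 a (hsub a (by tauto)).1 b hb
          · exact hs.n2 a ha b hb
        · intro a ha
          rcases mem_union.1 ha with ha | ha
          · by_cases haT : ∀ t ∈ T, ¬ lt a t
            · exact hcl a (mem_union_left _ (mem_union_left _ (mem_filter.2 ⟨ha, haT⟩)))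
            · push Not at haT
              obtain ⟨t, ht, hat⟩ := haT
              obtain ⟨t', ht', htt'⟩ := hTT' t ht
              exact ⟨t', ht', htr _ _ _ hat htt'⟩
          · rcases mem_union.1 ha with ha | ha
            · exact hTT' a ha
            · exact hcl a (mem_union_right _ ha)
      · rcases mem_union.1 hh with hh | hh
        · obtain ⟨hhA, hhT⟩ := mem_filter.1 hh
          refine Or.inr ⟨h, hhA, fun v hv => ?_⟩
          by_cases hvT : v ∈ T
          · exact inT h hhA hhT v hvT
          · have hhW : h ∉ W := disjoint_left.1 hAW hhA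
            refine ⟨T, ?_, h2, ?_, ?_⟩
            · intro w hw
              exact mem_insert_of_mem (mem_erase.2 ⟨fun e => hvT (e ▸ hw), h1 hw⟩)
            · intro a ha b hb
              rcases mem_insert.1 ha with rfl | ha
              · exact hhT b hb
              · exact h3 a (mem_of_mem_erase ha) b hb
            · have e : insert h (W.erase v) \ T = insert h ((W \ T).erase v) := by
                ext w
                simp only [mem_sdiff, mem_insert, mem_erase]
                by_cases e1 : w = h
                · subst e1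
                  have : w ∉ T := fun hw => hhW (h1 hw)
                  simp [this]
                · simp [e1]; tauto
              rw [e]
              exact hex v (mem_sdiff.2 ⟨hv, hvT⟩)
        · refine Or.inr ⟨h₀, hh₀, fun v hv => ?_⟩
          by_cases hvT : v ∈ T
          · exact inT h₀ hh₀ hh₀T v hvT
          · refine first h₀ hh₀ hh₀T h hh _ (erase_subset _ _) ?_ ?_
            · intro w hw
              have hwT := mem_of_mem_erase hw
              exact mem_erase.2 ⟨fun e => hvT (e ▸ hwT), h1 hwT⟩
            · have e : W.erase v \ T.erase h = insert h ((W \ T).erase v) := by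
                ext w
                simp only [mem_sdiff, mem_insert, mem_erase]
                by_cases e1 : w = h
                · subst e1
                  have h8 : w ≠ v := fun e => hvT (e ▸ hh)
                  simp [h8, h1 hh]
                · simp [e1]; tauto
              rw [e]
              exact hex v (mem_sdiff.2 ⟨hv, hvT⟩)

end Vale.Agent.P324.Alt
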