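import Vale.Agent.P324.Alt1
import Mathlib.Data.Prod.Lex
import Mathlib.Algebra.Order.BigOperators.Group.Finset

/-!
One-sided structure theorem, part 2: states (a bounded staircase of upper sets), the potential used
to choose slots, and the update of a state.
-/

namespace Vale.Agent.P324.Alt

open Finset

variable {V : Type*} [Fintype V] [DecidableEq V]
variable {lt : V → V → Prop} [DecidableRel lt] {r : V → ℤ} {m : ℕ}

/-! ### Terms -/

theorem term_mono {k k' : ℕ} {A : Finset V} (h : Term lt r k A) (hk : k ≤ k') :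
    Term lt r k' A := by
  induction hk with
  | refl => exact h
  | step _ ih => exact ih.succ

theorem term_biUnion {k : ℕ} (f : V → Finset V) (s : Finset V) (hf : ∀ a ∈ s, Term lt r k (f a)) :
    Term lt r (k + s.card) (s.biUnion f) := by
  induction s using Finset.induction_on with
  | empty => exact term_mono Term.empty (Nat.zero_le _)
  | insert a s ha ih =>
    rw [biUnion_insert, card_insert_of_notMem ha, ← add_assoc]
    exact Term.union (term_mono (hf a (mem_insert_self _ _)) (Nat.le_add_right _ _))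
      (ih fun b hb => hf b (mem_insert_of_mem hb))

theorem term_self {T : Finset V} (hT : T.card ≤ m) : Term lt r m T := by
  have := term_biUnion (lt := lt) (r := r) (k := 0) (fun a => {a}) T fun a _ => Term.single a
  rw [biUnion_singleton_eq_self] at this
  exact term_mono this (by omega)

theorem term_pred {T : Finset V} (hT : T.card ≤ m) :
    Term lt r m (univ.filter fun u => ∃ t ∈ T, lt u t) := by
  have := term_biUnion (lt := lt) (r := r) (k := 0) (fun a => univ.filter fun u => lt u a) T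
    fun a _ => Term.pre a
  have e : (T.biUnion fun a => univ.filter fun u => lt u a) =
      univ.filter fun u => ∃ t ∈ T, lt u t := by
    ext w; simp
  rw [e] at this
  exact term_mono this (by omega)

theorem term_succ {T : Finset V} (hT : T.card ≤ m) :
    Term lt r m (univ.filter fun u => ∃ t ∈ T, lt t u) := by
  have := term_biUnion (lt := lt) (r := r) (k := 0) (fun a => univ.filter fun u => lt a u) T
    fun a _ => Term.post a
  have e : (T.biUnion fun a => univ.filter fun u => lt a u) =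
      univ.filter fun u => ∃ t ∈ T, lt t u := by
    ext w; simp
  rw [e] at this
  exact term_mono this (by omega)

/-! ### States -/

/-- A state: classes `κ` of jobs and an upper set `U`. -/
structure St (lt : V → V → Prop) [DecidableRel lt] (r : V → ℤ) (m : ℕ) (κ : V → ℕ)
    (U : Finset V) : Prop where
  anti : ∀ u v, lt u v → κ v ≤ κ u
  closed : ∀ h ∈ U, ∀ w, κ w ≤ κ h → r h ≤ r w → w ∈ U
  bound : ∀ w ∈ U, κ w ≤ m
  basic : ∀ w ∈ U, Term lt r m (univ.filter fun u => κ u ≤ κ w)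

theorem St.term {κ : V → ℕ} {U : Finset V} (h : St lt r m κ U) (hinj : Function.Injective r) :
    Term lt r (m + 1 + (m + 1)) U := by
  classical
  set M := U.filter fun a => ∀ w ∈ U, κ w = κ a → r a ≤ r w with hM
  have hc : M.card ≤ m + 1 := by
    have : M.card ≤ (range (m + 1)).card := by
      refine card_le_card_of_injOn κ ?_ ?_
      · intro a ha
        have := h.bound a (mem_filter.1 (mem_coe.1 ha)).1
        simp only [coe_range, Set.mem_Iio]
        omega
      · intro a ha b hb hab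
        obtain ⟨ha1, ha2⟩ := mem_filter.1 (mem_coe.1 ha)
        obtain ⟨hb1, hb2⟩ := mem_filter.1 (mem_coe.1 hb)
        exact hinj (le_antisymm (ha2 b hb1 hab.symm) (hb2 a ha1 hab))
    simpa using this
  have ht := term_biUnion (lt := lt) (r := r) (k := m + 1)
    (fun a => (univ.filter fun u => κ u ≤ κ a) \ (univ.filter fun u => r u < r a)) M
    fun a ha => Term.sdiff (h.basic a (mem_filter.1 ha).1)
      (term_mono (Term.low a) (Nat.zero_le _))
  have e : (M.biUnion fun a =>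
      (univ.filter fun u => κ u ≤ κ a) \ (univ.filter fun u => r u < r a)) = U := by
    ext w
    simp only [mem_biUnion, mem_sdiff, mem_filter, mem_univ, true_and, not_lt]
    constructor
    · rintro ⟨a, ha, h1, h2⟩
      exact h.closed a (mem_filter.1 ha).1 w h1 h2
    · intro hw
      obtain ⟨a, ha, hmin⟩ := exists_min_image (U.filter fun u => κ u = κ w) r
        ⟨w, mem_filter.2 ⟨hw, rfl⟩⟩
      obtain ⟨ha1, ha2⟩ := mem_filter.1 ha
      refine ⟨a, mem_filter.2 ⟨ha1, fun u hu e => hmin u (mem_filter.2 ⟨hu, e.trans ha2⟩)⟩,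
        ha2.ge, hmin w (mem_filter.2 ⟨hw, rfl⟩)⟩
  rw [e] at ht
  exact term_mono ht (by omega)

/-- The potential of a slot: many dominated jobs, then a small sum of ranks. -/
def Psi (r : V → ℤ) (κ : V → ℕ) (T : Finset V) : ℕ ×ₗ ℤ :=
  toLex ((univ.filter fun w => ∃ h ∈ T, κ w ≤ κ h ∧ r h ≤ r w).card, -∑ h ∈ T, r h)

omit [DecidableRel lt] in
theorem psi_lt {κ : V → ℕ} {T : Finset V} {x v : V} (hx : x ∈ T) (hv : v ∉ T)
    (hsub : ∀ w, κ w ≤ κ x → r x ≤ r w → ∃ h ∈ insert v (T.erase x), κ w ≤ κ h ∧ r h ≤ r w)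
    (hlt : r v < r x ∨ ∀ h ∈ T, κ v ≤ κ h → r v < r h) :
    Psi r κ T < Psi r κ (insert v (T.erase x)) := by
  have hss : (univ.filter fun w => ∃ h ∈ T, κ w ≤ κ h ∧ r h ≤ r w) ⊆
      univ.filter fun w => ∃ h ∈ insert v (T.erase x), κ w ≤ κ h ∧ r h ≤ r w := by
    intro w hw
    obtain ⟨h, hh, h1, h2⟩ := (mem_filter.1 hw).2
    refine mem_filter.2 ⟨mem_univ _, ?_⟩
    by_cases e : h = x
    · exact hsub w (e ▸ h1) (e ▸ h2)
    · exact ⟨h, mem_insert_of_mem (mem_erase.2 ⟨e, hh⟩), h1, h2⟩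
  unfold Psi
  rw [Prod.Lex.toLex_lt_toLex]
  rcases hlt with hlt | hlt
  · rcases (card_le_card hss).lt_or_eq with h | h
    · exact Or.inl h
    · refine Or.inr ⟨h, ?_⟩
      have h1 : v ∉ T.erase x := fun h => hv (mem_of_mem_erase h)
      have h2 := add_sum_erase T r hx
      show -∑ h ∈ T, r h < -∑ h ∈ insert v (T.erase x), r h
      rw [sum_insert h1]
      omega
  · refine Or.inl (card_lt_card ⟨hss, fun hs => ?_⟩)
    have : v ∈ univ.filter fun w => ∃ h ∈ T, κ w ≤ κ h ∧ r h ≤ r w :=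
      hs (mem_filter.2 ⟨mem_univ _, v, mem_insert_self _ _, le_rfl, le_rfl⟩)
    obtain ⟨h, hh, h1, h2⟩ := (mem_filter.1 this).2
    exact absurd (hlt h hh h1) (not_lt.2 h2)

/-- Update of a state: the owners `O` are removed, the jobs of `W` are kept. -/
theorem St.update {κ : V → ℕ} {U T O W : Finset V} (hs : St lt r m κ U)
    (htr : ∀ a b c, lt a b → lt b c → lt a c) (hinj : Function.Injective r)
    (hmono : ∀ a b, lt a b → r a < r b) (hTU : T ⊆ U) (hT : T.card ≤ m) (hTT : NB lt T T)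
    (hOT : O ⊆ T) (hWU : W ⊆ U) (hTW : Disjoint T W)
    (hown : ∀ x ∈ O, ∀ v ∈ W, (∀ u ∈ T ∪ W, ¬ lt u v) →
      Psi r κ (insert v (T.erase x)) ≤ Psi r κ T) :
    ∃ κ' U', St lt r m κ' U' ∧ W ⊆ U' ∧ U' ⊆ U ∧ Disjoint O U' := by
  classical
  -- every job of `W` lies above a job of `T` or above a minimal job of `W`
  have gen : ∀ w ∈ W, (∃ h ∈ T, lt h w) ∨
      ∃ v ∈ W, (∀ u ∈ T ∪ W, ¬ lt u v) ∧ (v = w ∨ lt v w) := by
    intro w hw
    obtain ⟨v, hv, hmin⟩ := exists_min_image ((T ∪ W).filter fun u => u = w ∨ lt u w) r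
      ⟨w, mem_filter.2 ⟨mem_union_right _ hw, Or.inl rfl⟩⟩
    obtain ⟨hv1, hv2⟩ := mem_filter.1 hv
    rcases mem_union.1 hv1 with hvT | hvW
    · rcases hv2 with e | hv2
      · exact absurd hw (disjoint_left.1 hTW (e ▸ hvT))
      · exact Or.inl ⟨v, hvT, hv2⟩
    · refine Or.inr ⟨v, hvW, fun u hu huv => ?_, hv2⟩
      have h1 : lt u w := by
        rcases hv2 with e | hv2
        · exact e ▸ huv
        · exact htr _ _ _ huv hv2
      have h2 := hmin u (mem_filter.2 ⟨hu, Or.inr h1⟩)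
      have h3 := hmono _ _ huv
      omega
  have hle : ∀ v w, (v = w ∨ lt v w) → κ w ≤ κ v ∧ r v ≤ r w := by
    rintro v w (e | e)
    · subst e; exact ⟨le_rfl, le_rfl⟩
    · exact ⟨hs.anti _ _ e, (hmono _ _ e).le⟩
  by_cases hdom : ∃ x ∈ O, ∃ h ∈ T, κ x ≤ κ h ∧ r h < r x
  swap
  · -- no owner is dominated
    push Not at hdom
    refine ⟨κ, U.filter fun w => ∀ x ∈ O, κ x ≤ κ w → r x < r w, ⟨hs.anti, ?_, ?_, ?_⟩, ?_,
      filter_subset _ _, ?_⟩
    · intro h hh w h1 h2
      obtain ⟨hh1, hh2⟩ := mem_filter.1 hh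
      refine mem_filter.2 ⟨hs.closed h hh1 w h1 h2, fun x hx h3 => ?_⟩
      exact (hh2 x hx (h3.trans h1)).trans_le h2
    · exact fun w hw => hs.bound w (mem_filter.1 hw).1
    · exact fun w hw => hs.basic w (mem_filter.1 hw).1
    · intro w hw
      refine mem_filter.2 ⟨hWU hw, fun x hx h1 => ?_⟩
      rcases gen w hw with ⟨h, hh, hhw⟩ | ⟨v, hv, hmin, hvw⟩
      · exact (hdom x hx h hh (h1.trans (hs.anti _ _ hhw))).trans_lt (hmono _ _ hhw)
      · obtain ⟨h2, h3⟩ := hle v w hvw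
        by_contra hcon
        have hvT : v ∉ T := disjoint_right.1 hTW hv
        have hne : r v ≠ r x := fun e => hvT (hinj e ▸ hOT hx)
        have h4 : r v < r x := by omega
        refine absurd (hown x hx v hv hmin) (not_le.2 (psi_lt (hOT hx) hvT ?_ (Or.inl h4)))
        intro u h5 h6
        exact ⟨v, mem_insert_self _ _, by omega, by omega⟩
    · refine disjoint_left.2 fun x hx hx' => ?_
      exact absurd ((mem_filter.1 hx').2 x hx le_rfl) (lt_irrefl _)
  · -- `x` is the dominated owner of largest rank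
    obtain ⟨x, hx, hxmax⟩ := exists_max_image
      (O.filter fun x => ∃ h ∈ T, κ x ≤ κ h ∧ r h < r x) r
      (by obtain ⟨x, hx, h⟩ := hdom; exact ⟨x, mem_filter.2 ⟨hx, h⟩⟩)
    obtain ⟨hxO, y, hy, hy1, hy2⟩ := mem_filter.1 hx
    have hxT := hOT hxO
    -- `z` has the largest class among the jobs of `T` of rank below `x`
    obtain ⟨z, hz, hzmax⟩ := exists_max_image (T.filter fun h => r h < r x) κ
      ⟨y, mem_filter.2 ⟨hy, hy2⟩⟩
    obtain ⟨hzT, hzx⟩ := mem_filter.1 hz
    have hxz : κ x ≤ κ z := hy1.trans (hzmax y (mem_filter.2 ⟨hy, hy2⟩))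
    set H := T.filter fun h => r h < r x with hH
    set T' := (T.erase x).filter fun h => κ z ≤ κ h with hT'
    have hT'T : ∀ h ∈ T', h ∈ T := fun h hh => mem_of_mem_erase (mem_filter.1 hh).1
    have hzT' : z ∈ T' :=
      mem_filter.2 ⟨mem_erase.2 ⟨fun e => absurd (e ▸ hzx) (lt_irrefl _), hzT⟩, le_rfl⟩
    have hcT' : T'.card + 1 ≤ m := by
      have h1 : T'.card ≤ (T.erase x).card := card_filter_le _ _
      have h2 := card_erase_of_mem hxT
      have h3 : 0 < T.card := card_pos.2 ⟨x, hxT⟩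
      omega
    have key : ∀ v ∈ W, (∀ u ∈ T ∪ W, ¬ lt u v) →
        r x < r v ∧ ∃ h ∈ T, κ v ≤ κ h ∧ r h ≤ r v := by
      intro v hv hmin
      have hvT : v ∉ T := disjoint_right.1 hTW hv
      have hne : r v ≠ r x := fun e => hvT (hinj e ▸ hxT)
      by_contra hcon
      refine absurd (hown x hxO v hv hmin) (not_le.2 (psi_lt hxT hvT ?_ ?_))
      · intro u h5 h6
        exact ⟨z, mem_insert_of_mem (mem_filter.1 hzT').1, by omega, by omega⟩
      · by_cases h7 : r v < r x
        · exact Or.inl h7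
        · refine Or.inr fun h hh h8 => ?_
          by_contra h9
          exact hcon ⟨by omega, h, hh, h8, by omega⟩
    have toT' : ∀ w ∈ W, r x < r w → ∀ h ∈ T, κ w ≤ κ h → r h ≤ r w →
        ∃ h ∈ T', κ w ≤ κ h ∧ r h < r w := by
      intro w hw h1 h hh h2 h3
      by_cases h4 : κ h ≤ κ z
      · exact ⟨z, hzT', by omega, by omega⟩
      · have : h ≠ x := fun e => h4 (e ▸ hxz)
        have h5 : r h ≠ r w := fun e => disjoint_left.1 hTW hh (hinj e ▸ hw)
        exact ⟨h, mem_filter.2 ⟨mem_erase.2 ⟨this, hh⟩, by omega⟩, h2, by omega⟩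
    have hHz : ∀ w, (∃ h ∈ H, lt h w) → κ w ≤ κ z ∧ ∃ h ∈ T, κ w ≤ κ h ∧ r h ≤ r w := by
      rintro w ⟨h, hh, hhw⟩
      have h1 := hs.anti _ _ hhw
      exact ⟨h1.trans (hzmax h hh), h, (mem_filter.1 hh).1, h1, (hmono _ _ hhw).le⟩
    set κ' : V → ℕ := fun w =>
      if ∃ h ∈ H, lt h w then 0 else (T'.filter fun h => κ h < κ w).card + 1 with hκ'
    have hcnt : ∀ u w, κ u ≤ κ w →
        (T'.filter fun h => κ h < κ u).card ≤ (T'.filter fun h => κ h < κ w).card := by
      intro u w huw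
      refine card_le_card fun h hh => ?_
      obtain ⟨h1, h2⟩ := mem_filter.1 hh
      exact mem_filter.2 ⟨h1, h2.trans_le huw⟩
    -- description of the new sublevel sets
    have hsub : ∀ w, ¬ (∃ h ∈ H, lt h w) → (∃ h ∈ T', κ w ≤ κ h) →
        ∃ g ∈ T', κ w ≤ κ g ∧ (∀ h ∈ T', κ w ≤ κ h → κ g ≤ κ h) ∧
          ∀ u, κ' u ≤ κ' w ↔ κ u ≤ κ g := by
      rintro w hw ⟨h₀, hh₀, hh₀w⟩
      obtain ⟨g, hg, hgmin⟩ := exists_min_image (T'.filter fun h => κ w ≤ κ h) κ
        ⟨h₀, mem_filter.2 ⟨hh₀, hh₀w⟩⟩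
      obtain ⟨hg1, hg2⟩ := mem_filter.1 hg
      have hzg : κ z ≤ κ g := (mem_filter.1 hg1).2
      refine ⟨g, hg1, hg2, fun h hh h1 => hgmin h (mem_filter.2 ⟨hh, h1⟩), fun u => ?_⟩
      have e : (T'.filter fun h => κ h < κ g) = T'.filter fun h => κ h < κ w := by
        refine filter_congr fun h hh => ⟨fun h1 => ?_, fun h1 => h1.trans_le hg2⟩
        by_contra h2
        exact absurd (hgmin h (mem_filter.2 ⟨hh, not_lt.1 h2⟩)) (not_le.2 h1)
      simp only [hκ', if_neg hw]
      by_cases hu : ∃ h ∈ H, lt h u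
      · rw [if_pos hu]
        exact ⟨fun _ => (hHz u hu).1.trans hzg, fun _ => Nat.zero_le _⟩
      · rw [if_neg hu, ← e]
        refine ⟨fun h1 => ?_, fun h1 => Nat.succ_le_succ (hcnt _ _ h1)⟩
        by_contra h2
        have h3 : (T'.filter fun h => κ h < κ g).card < (T'.filter fun h => κ h < κ u).card := by
          refine card_lt_card ⟨fun h hh => ?_, fun hs' => ?_⟩
          · obtain ⟨h4, h5⟩ := mem_filter.1 hh
            exact mem_filter.2 ⟨h4, by omega⟩
          · have := hs' (mem_filter.2 ⟨hg1, not_le.1 h2⟩)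
            exact absurd (mem_filter.1 this).2 (lt_irrefl _)
        omega
    have hzero : ∀ w, (∃ h ∈ H, lt h w) → ∀ u, κ' u ≤ κ' w ↔ ∃ h ∈ H, lt h u := by
      intro w hw u
      simp only [hκ', if_pos hw]
      by_cases hu : ∃ h ∈ H, lt h u
      · rw [if_pos hu]; exact ⟨fun _ => hu, fun _ => le_rfl⟩
      · rw [if_neg hu]; exact ⟨fun h => absurd h (by omega), fun h => absurd h hu⟩
    refine ⟨κ', univ.filter fun w => (∃ h ∈ H, lt h w) ∨
      (r x < r w ∧ ∃ h ∈ T', κ w ≤ κ h ∧ r h < r w), ⟨?_, ?_, ?_, ?_⟩, ?_, ?_, ?_⟩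
    · intro u v huv
      simp only [hκ']
      by_cases hv : ∃ h ∈ H, lt h v
      · rw [if_pos hv]; exact Nat.zero_le _
      · have hu : ¬ ∃ h ∈ H, lt h u := fun ⟨h, hh, hhu⟩ => hv ⟨h, hh, htr _ _ _ hhu huv⟩
        rw [if_neg hv, if_neg hu]
        exact Nat.succ_le_succ (hcnt _ _ (hs.anti _ _ huv))
    · intro w hw u h1 h2
      refine mem_filter.2 ⟨mem_univ _, ?_⟩
      by_cases hwH : ∃ h ∈ H, lt h w
      · exact Or.inl ((hzero w hwH u).1 h1)
      · rcases (mem_filter.1 hw).2 with h3 | ⟨h3, h, hh, h4, h5⟩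
        · exact absurd h3 hwH
        · obtain ⟨g, -, -, hg2, hg3⟩ := hsub w hwH ⟨h, hh, h4⟩
          exact Or.inr ⟨by omega, h, hh, ((hg3 u).1 h1).trans (hg2 h hh h4), by omega⟩
    · intro w _
      simp only [hκ']
      split_ifs
      · exact Nat.zero_le _
      · have : (T'.filter fun h => κ h < κ w).card ≤ T'.card := card_filter_le _ _
        omega
    · intro w hw
      by_cases hwH : ∃ h ∈ H, lt h w
      · rw [filter_congr fun u _ => hzero w hwH u]
        exact term_succ ((card_filter_le _ _).trans hT)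
      · rcases (mem_filter.1 hw).2 with h3 | ⟨-, h, hh, h4, -⟩
        · exact absurd h3 hwH
        · obtain ⟨g, hg1, -, -, hg3⟩ := hsub w hwH ⟨h, hh, h4⟩
          rw [filter_congr fun u _ => hg3 u]
          exact hs.basic g (hTU (hT'T g hg1))
    · intro w hw
      refine mem_filter.2 ⟨mem_univ _, ?_⟩
      rcases gen w hw with ⟨h, hh, hhw⟩ | ⟨v, hv, hmin, hvw⟩
      · by_cases h1 : r h < r x
        · exact Or.inl ⟨h, mem_filter.2 ⟨hh, h1⟩, hhw⟩
        · have h2 := hmono _ _ hhw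
          exact Or.inr ⟨by omega, toT' w hw (by omega) h hh (hs.anti _ _ hhw) h2.le⟩
      · obtain ⟨h2, h3⟩ := hle v w hvw
        obtain ⟨h4, h, hh, h5, h6⟩ := key v hv hmin
        exact Or.inr ⟨by omega, toT' w hw (by omega) h hh (by omega) (by omega)⟩
    · intro w hw
      rcases (mem_filter.1 hw).2 with h3 | ⟨-, h, hh, h4, h5⟩
      · obtain ⟨-, h, hh, h4, h5⟩ := hHz w h3
        exact hs.closed h (hTU hh) w h4 h5
      · exact hs.closed h (hTU (hT'T h hh)) w h4 h5.le
    · refine disjoint_left.2 fun w hw hw' => ?_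
      rcases (mem_filter.1 hw').2 with ⟨h, hh, hhw⟩ | ⟨h3, h, hh, h4, h5⟩
      · exact hTT h (mem_filter.1 hh).1 w (hOT hw) hhw
      · have := hxmax w (mem_filter.2 ⟨hw, h, hT'T h hh, h4, h5⟩)
        omega

end Vale.Agent.P324.Alt
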