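import Vale.Agent.P324.Alt2

/-!
One-sided structure theorem, part 3: every feasible instance has a decomposition tree all of whose
job sets have short descriptions.
-/

namespace Vale.Agent.P324.Alt

open Finset

variable {V : Type*} [Fintype V] [DecidableEq V]
variable {lt : V → V → Prop} [DecidableRel lt] {r : V → ℤ} {m : ℕ}

/-- `W` consists of the jobs of `D ∩ U` which are neither in `T` nor below a job of `T`. -/
def Desc (lt : V → V → Prop) (D U T W : Finset V) : Prop :=
  ∀ w, w ∈ W ↔ w ∈ D ∧ w ∈ U ∧ w ∉ T ∧ ∀ t ∈ T, ¬ lt w t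

theorem Desc.term {κ : V → ℕ} {D U T W : Finset V} (h : Desc lt D U T W) (hs : St lt r m κ U)
    (hinj : Function.Injective r) (hD : Term lt r m D) (hT : T.card ≤ m) :
    Term lt r (2 * m + 4) W := by
  have e : W = (D ∩ U) \ (T ∪ univ.filter fun u => ∃ t ∈ T, lt u t) := by
    ext w
    rw [h w]
    simp only [mem_sdiff, mem_inter, mem_union, mem_filter, mem_univ, true_and, not_or,
      not_exists, not_and]
    tauto
  rw [e]
  refine Term.sdiff (k := 2 * m + 3) (Term.inter (k := 2 * m + 2) (term_mono hD (by omega))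
    (term_mono (hs.term hinj) (by omega))) ?_
  exact term_mono (Term.union (term_self hT) (term_pred hT)) (by omega)

theorem main (htr : ∀ a b c, lt a b → lt b c → lt a c) (hinj : Function.Injective r)
    (hmono : ∀ a b, lt a b → r a < r b) :
    ∀ (l c : ℕ) (κ : V → ℕ) (U T O D W : Finset V), (T \ O).card ≤ c → St lt r m κ U → T ⊆ U →
      T.card ≤ m → NB lt T T → O ⊆ T → Term lt r m D → (∀ a b, lt a b → b ∈ D → a ∈ D) →
      Desc lt D U T W → PS lt m l W → Opt lt m (Psi r κ) T W l →
      (∀ x ∈ O, ∀ v ∈ W, (∀ u ∈ T ∪ W, ¬ lt u v) →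
        Psi r κ (insert v (T.erase x)) ≤ Psi r κ T) →
      Dec lt m (Term lt r (2 * m + 4)) W l := by
  have hirr : ∀ a, ¬ lt a a := fun a h => absurd (hmono a a h) (lt_irrefl _)
  intro l
  induction l using Nat.strong_induction_on with
  | _ l ihl =>
  intro c
  induction c using Nat.strong_induction_on with
  | _ c ihc =>
  intro κ U T O D W hc hs hTU hT hTT hOT hD hDc hW hps hopt hown
  rcases Nat.eq_zero_or_pos l with rfl | hl
  · have : W = ∅ := hps
    subst this
    exact Dec.nil
  have hWU : W ⊆ U := fun w hw => ((hW w).1 hw).2.1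
  have hTW : Disjoint T W := disjoint_right.2 fun w hw => ((hW w).1 hw).2.2.1
  have hWT : NB lt W T := fun w hw => ((hW w).1 hw).2.2.2
  obtain ⟨κ', U', hs', hWU', hU'U, hOU'⟩ :=
    hs.update htr hinj hmono hTU hT hTT hOT hWU hTW hown
  rcases dicho (Psi r κ') htr hirr l W (T \ O) hps (hTW.mono_left sdiff_subset)
    (fun a ha b hb => hWT a ha b (mem_sdiff.1 hb).1) (Or.inr hl.ne') with
    ⟨W₁, T', W₂, l₁, l₂, hsp, hcl, hopt'⟩ | ⟨h, hh, hex⟩
  · have hmem : ∀ w, w ∈ W ↔ w ∈ W₁ ∨ w ∈ T' ∨ w ∈ W₂ := by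
      intro w
      rw [hsp.eq]
      simp only [mem_union]
      tauto
    have hlen := hsp.len
    have hT'W : T' ⊆ W := fun w hw => (hmem w).2 (by tauto)
    have hW₁W : W₁ ⊆ W := fun w hw => (hmem w).2 (by tauto)
    have hW₂W : W₂ ⊆ W := fun w hw => (hmem w).2 (by tauto)
    -- description of the initial part
    have hd₁ : Desc lt (univ.filter fun u => ∃ t ∈ T', lt u t) U T W₁ := by
      intro w
      constructor
      · intro hw
        exact ⟨mem_filter.2 ⟨mem_univ _, hcl w (mem_union_right _ hw)⟩,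
          ((hW w).1 (hW₁W hw)).2⟩
      · rintro ⟨h1, h2⟩
        obtain ⟨t, ht, hwt⟩ := (mem_filter.1 h1).2
        have h3 : w ∈ W := (hW w).2 ⟨hDc _ _ hwt ((hW t).1 (hT'W ht)).1, h2⟩
        rcases (hmem w).1 h3 with h4 | h4 | h4
        · exact h4
        · exact absurd hwt (hsp.n0 w h4 t ht)
        · exact absurd hwt (hsp.n3 w h4 t ht)
    -- description of the final part
    have hd₂ : Desc lt D U' T' W₂ := by
      intro w
      constructor
      · intro hw
        exact ⟨((hW w).1 (hW₂W hw)).1, hWU' (hW₂W hw), disjoint_right.1 hsp.d3 hw, hsp.n3 w hw⟩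
      · rintro ⟨h1, h2, h3, h4⟩
        have act : ∀ t ∈ T, t ∈ U' → ∃ t' ∈ T', lt t t' := fun t ht htU =>
          hcl t (mem_union_left _ (mem_sdiff.2 ⟨ht, disjoint_right.1 hOU' htU⟩))
        have h5 : w ∈ W := by
          refine (hW w).2 ⟨h1, hU'U h2, fun h6 => ?_, fun t ht h6 => ?_⟩
          · obtain ⟨t', ht', h7⟩ := act w h6 h2
            exact h4 t' ht' h7
          · obtain ⟨t', ht', h7⟩ :=
              act t ht (hs'.closed w h2 t (hs'.anti _ _ h6) (hmono _ _ h6).le)
            exact h4 t' ht' (htr _ _ _ h6 h7)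
        rcases (hmem w).1 h5 with h6 | h6 | h6
        · obtain ⟨t', ht', h7⟩ := hcl w (mem_union_right _ h6)
          exact absurd h7 (h4 t' ht')
        · exact absurd h6 h3
        · exact h6
    have hmin : ∀ v ∈ W₁, (∀ u ∈ T ∪ W₁, ¬ lt u v) → ∀ u ∈ T ∪ W, ¬ lt u v := by
      intro v hv h1 u hu
      rcases mem_union.1 hu with hu | hu
      · exact h1 u (mem_union_left _ hu)
      · rcases (hmem u).1 hu with h2 | h2 | h2
        · exact h1 u (mem_union_right _ h2)
        · exact hsp.n1 u h2 v hv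
        · exact hsp.n2 u h2 v hv
    have hrest : PS lt m (l₂ + 1) (T' ∪ W₂) := by
      refine ⟨T', subset_union_left, hsp.card, ?_, ?_⟩
      · intro a ha b hb
        rcases mem_union.1 ha with ha | ha
        · exact hsp.n0 a ha b hb
        · exact hsp.n3 a ha b hb
      · rw [union_sdiff_cancel_left hsp.d3]
        exact hsp.p2
    have hopt₁ : Opt lt m (Psi r κ) T W₁ l₁ := by
      intro x hx v hv h1 h2
      refine hopt x hx v (hW₁W hv) (hmin v hv h1) ?_
      have hxW : x ∉ W := disjoint_left.1 hTW hx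
      have h3 := h2.glue hrest ?_ ?_
      · have e1 : l₁ + (l₂ + 1) = l := by omega
        have e2 : insert x (W₁.erase v) ∪ (T' ∪ W₂) = insert x (W.erase v) := by
          ext w
          simp only [mem_union, mem_insert, mem_erase, hmem w]
          have h4 : w ∈ T' → w ≠ v := fun h e => disjoint_left.1 hsp.d1 hv (e ▸ h)
          have h5 : w ∈ W₂ → w ≠ v := fun h e => disjoint_left.1 hsp.d2 hv (e ▸ h)
          tauto
        rwa [e1, e2] at h3
      · refine disjoint_left.2 fun w hw hw' => ?_
        rcases mem_insert.1 hw with e | hw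
        · exact hxW (e ▸ (hmem w).2 (Or.inr (mem_union.1 hw')))
        · rcases mem_union.1 hw' with h4 | h4
          · exact disjoint_left.1 hsp.d1 (mem_of_mem_erase hw) h4
          · exact disjoint_left.1 hsp.d2 (mem_of_mem_erase hw) h4
      · intro a ha b hb
        rcases mem_insert.1 hb with e | hb'
        · rw [e]
          exact hWT a ((hmem a).2 (Or.inr (mem_union.1 ha))) x hx
        · rcases mem_union.1 ha with h4 | h4
          · exact hsp.n1 a h4 b (mem_of_mem_erase hb')
          · exact hsp.n2 a h4 b (mem_of_mem_erase hb')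
    have hD₁ : Term lt r m (univ.filter fun u => ∃ t ∈ T', lt u t) := term_pred hsp.card
    have dec₁ := ihl l₁ (by omega) _ κ U T O _ W₁ le_rfl hs hTU hT hTT hOT hD₁
      (by
        intro a b hab hb
        obtain ⟨t, ht, hbt⟩ := (mem_filter.1 hb).2
        exact mem_filter.2 ⟨mem_univ _, t, ht, htr _ _ _ hab hbt⟩)
      hd₁ hsp.p1 hopt₁ (fun x hx v hv h1 => hown x hx v (hW₁W hv) (hmin v hv h1))
    have dec₂ := ihl l₂ (by omega) _ κ' U' T' ∅ D W₂ le_rfl hs' (hT'W.trans hWU') hsp.card hsp.n0
      (empty_subset _) hD hDc hd₂ hsp.p2 hopt' (fun x hx => absurd hx (notMem_empty x))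
    rw [hsp.eq, hlen]
    exact Dec.node (hd₁.term hs hinj hD₁ hT) (term_mono (term_self hsp.card) (by omega))
      (hd₂.term hs' hinj hD hsp.card) dec₁ dec₂ hsp.card hsp.n0 hsp.d1 hsp.d2 hsp.d3
      (fun a ha b hb => hsp.n1 b hb a ha) (fun a ha b hb => hsp.n2 b hb a ha)
      (fun a ha b hb => hsp.n3 b hb a ha)
  · obtain ⟨hhT, hhO⟩ := mem_sdiff.1 hh
    have hlt : (T \ insert h O).card < c := by
      refine lt_of_lt_of_le (card_lt_card ⟨sdiff_subset_sdiff le_rfl (subset_insert _ _), ?_⟩) hc
      intro hsub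
      exact (mem_sdiff.1 (hsub hh)).2 (mem_insert_self _ _)
    refine ihc _ hlt κ U T (insert h O) D W le_rfl hs hTU hT hTT (insert_subset hhT hOT) hD hDc hW
      hps hopt ?_
    intro x hx v hv h1
    rcases mem_insert.1 hx with e | hx'
    · rw [e]
      exact hopt h hhT v hv h1 (hex v hv)
    · exact hown x hx' v hv h1

/-- Structure theorem: a feasible instance has a decomposition tree with short descriptions. -/
theorem dec_of_sch (htr : ∀ a b c, lt a b → lt b c → lt a c) (hinj : Function.Injective r)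
    (hmono : ∀ a b, lt a b → r a < r b) {l : ℕ} {τ : V → ℤ}
    (h : Sch lt m univ 0 (l + 1) τ) : Dec lt m (Term lt r (2 * m + 4)) univ l := by
  have hps : PS lt m l univ := ps_of_sch l univ 0 τ (by simpa using h)
  have hu : Term lt r m (univ : Finset V) := term_mono Term.univ (Nat.zero_le _)
  refine main htr hinj hmono l _ (fun _ => 0) univ ∅ ∅ univ univ le_rfl
    ⟨fun _ _ _ => le_rfl, fun _ _ _ _ _ => mem_univ _, fun _ _ => Nat.zero_le _, fun _ _ => ?_⟩
    (empty_subset _) (Nat.zero_le _) (fun a ha => absurd ha (notMem_empty a)) (empty_subset _) hu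
    (fun _ _ _ _ => mem_univ _) (fun w => by simp) hps
    (fun x hx => absurd hx (notMem_empty x)) (fun x hx => absurd hx (notMem_empty x))
  simpa using hu

end Vale.Agent.P324.Alt
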