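import Vale.Agent.P324.CoreDefs
import Mathlib.Algebra.Order.BigOperators.Group.Finset
import Mathlib.Algebra.Order.Group.Abs
import Mathlib.Logic.Equiv.Basic
import Mathlib.Tactic.Linarith
import Mathlib.Tactic.Ring

/-!
Swaps, gluing, and schedules that are lexicographically optimal from the last slot backwards.
-/

namespace Vale.Agent.P324

open Finset

variable {V : Type*} [DecidableEq V] {lt : V → V → Prop} {m : ℕ} {X : Finset V} {s t : ℤ}
  {τ : V → ℤ}

theorem swap_mem {x y : V} (hx : x ∈ X) (hy : y ∈ X) {v : V} (hv : v ∈ X) :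
    Equiv.swap x y v ∈ X := by
  rw [Equiv.swap_apply_def]
  split_ifs <;> assumption

theorem Sch.swap (h : Sch lt m X s t τ) {x y : V} (hx : x ∈ X) (hy : y ∈ X) (hxy : τ x < τ y)
    (hs : ∀ z ∈ X, lt x z → τ y < τ z) (hp : ∀ z ∈ X, lt z y → τ z < τ x) :
    Sch lt m X s t (fun v => τ (Equiv.swap x y v)) where
  lo v hv := h.lo _ (swap_mem hx hy hv)
  hi v hv := h.hi _ (swap_mem hx hy hv)
  cap i := by
    refine le_trans (le_of_eq ?_) (h.cap i)
    refine card_bij (fun v _ => Equiv.swap x y v) ?_ ?_ ?_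
    · intro v hv
      rw [mem_filter] at hv ⊢
      exact ⟨swap_mem hx hy hv.1, hv.2⟩
    · intro a _ b _ hab
      exact (Equiv.swap x y).injective hab
    · intro b hb
      rw [mem_filter] at hb
      refine ⟨Equiv.swap x y b, ?_, by simp⟩
      rw [mem_filter]
      exact ⟨swap_mem hx hy hb.1, by simpa using hb.2⟩
  mono u hu v hv huv := by
    have h0 := h.mono u hu v hv huv
    simp only [Equiv.swap_apply_def]
    split_ifs with h1 h2 h3 h4 h5 h6 h7 h8
    · subst h1; subst h2; omega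
    · subst h1; subst h3; have := hs _ hv huv; omega
    · subst h1; exact hs _ hv huv
    · subst h4; subst h5; omega
    · subst h4; subst h6; omega
    · subst h4; omega
    · subst h7; omega
    · subst h8; exact hp _ hu huv
    · exact h0

omit [DecidableEq V] in
theorem Sch.left (h : Sch lt m X s t τ) (f : ℤ) : Sch lt m (X.filter fun v => τ v < f) s f τ where
  lo v hv := h.lo v (mem_filter.1 hv).1
  hi _ hv := (mem_filter.1 hv).2
  cap i := le_trans (card_le_card (filter_subset_filter _ (filter_subset _ _))) (h.cap i)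
  mono u hu v hv := h.mono u (mem_filter.1 hu).1 v (mem_filter.1 hv).1

omit [DecidableEq V] in
theorem Sch.right (h : Sch lt m X s t τ) (f : ℤ) : Sch lt m (X.filter fun v => f < τ v) f t τ where
  lo _ hv := (mem_filter.1 hv).2
  hi v hv := h.hi v (mem_filter.1 hv).1
  cap i := le_trans (card_le_card (filter_subset_filter _ (filter_subset _ _))) (h.cap i)
  mono u hu v hv := h.mono u (mem_filter.1 hu).1 v (mem_filter.1 hv).1

theorem Sch.glueLeft (h : Sch lt m X s t τ) {f : ℤ} (hf : f ≤ t) {σ : V → ℤ}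
    (hσ : Sch lt m (X.filter fun v => τ v < f) s f σ) :
    Sch lt m X s t (fun v => if τ v < f then σ v else τ v) where
  lo v hv := by
    split_ifs with h1
    · exact hσ.lo v (mem_filter.2 ⟨hv, h1⟩)
    · exact h.lo v hv
  hi v hv := by
    split_ifs with h1
    · exact (hσ.hi v (mem_filter.2 ⟨hv, h1⟩)).trans_le hf
    · exact h.hi v hv
  cap i := by
    by_cases hi : i < f
    · refine le_trans (card_le_card fun v hv => ?_) (hσ.cap i)
      rw [mem_filter] at hv
      obtain ⟨hv, h2⟩ := hv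
      split_ifs at h2 with h1
      · exact mem_filter.2 ⟨mem_filter.2 ⟨hv, h1⟩, h2⟩
      · omega
    · refine le_trans (card_le_card fun v hv => ?_) (h.cap i)
      rw [mem_filter] at hv
      obtain ⟨hv, h2⟩ := hv
      split_ifs at h2 with h1
      · have := hσ.hi v (mem_filter.2 ⟨hv, h1⟩)
        omega
      · exact mem_filter.2 ⟨hv, h2⟩
  mono u hu v hv huv := by
    have h0 := h.mono u hu v hv huv
    split_ifs with h1 h2 h3
    · exact hσ.mono u (mem_filter.2 ⟨hu, h1⟩) v (mem_filter.2 ⟨hv, h2⟩) huv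
    · have := hσ.hi u (mem_filter.2 ⟨hu, h1⟩)
      omega
    · omega
    · exact h0

theorem Sch.glueRight (h : Sch lt m X s t τ) {f : ℤ} (hf : s ≤ f) {σ : V → ℤ}
    (hσ : Sch lt m (X.filter fun v => f < τ v) f t σ) :
    Sch lt m X s t (fun v => if f < τ v then σ v else τ v) where
  lo v hv := by
    split_ifs with h1
    · exact hf.trans_lt (hσ.lo v (mem_filter.2 ⟨hv, h1⟩))
    · exact h.lo v hv
  hi v hv := by
    split_ifs with h1
    · exact hσ.hi v (mem_filter.2 ⟨hv, h1⟩)
    · exact h.hi v hv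
  cap i := by
    by_cases hi : f < i
    · refine le_trans (card_le_card fun v hv => ?_) (hσ.cap i)
      rw [mem_filter] at hv
      obtain ⟨hv, h2⟩ := hv
      split_ifs at h2 with h1
      · exact mem_filter.2 ⟨mem_filter.2 ⟨hv, h1⟩, h2⟩
      · omega
    · refine le_trans (card_le_card fun v hv => ?_) (h.cap i)
      rw [mem_filter] at hv
      obtain ⟨hv, h2⟩ := hv
      split_ifs at h2 with h1
      · have := hσ.lo v (mem_filter.2 ⟨hv, h1⟩)
        omega
      · exact mem_filter.2 ⟨hv, h2⟩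
  mono u hu v hv huv := by
    have h0 := h.mono u hu v hv huv
    split_ifs with h1 h2 h3
    · exact hσ.mono u (mem_filter.2 ⟨hu, h1⟩) v (mem_filter.2 ⟨hv, h2⟩) huv
    · omega
    · have := hσ.lo v (mem_filter.2 ⟨hv, h3⟩)
      omega
    · exact h0

/-- The total weight of slot `f`. -/
def slotSum (w : V → ℤ) (X : Finset V) (τ : V → ℤ) (f : ℤ) : ℤ :=
  ∑ v ∈ X.filter (fun v => τ v = f), w v

/-- Two schedules agree on the slots after `f`. -/
def Agree (X : Finset V) (f : ℤ) (τ σ : V → ℤ) : Prop :=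
  ∀ v ∈ X, f < τ v ∨ f < σ v → σ v = τ v

/-- No slot can get a larger weight without changing a later slot. -/
def Opt (lt : V → V → Prop) (m : ℕ) (X : Finset V) (s t : ℤ) (w : V → ℤ) (τ : V → ℤ) : Prop :=
  ∀ f σ, Sch lt m X s t σ → Agree X f τ σ → slotSum w X σ f ≤ slotSum w X τ f

omit [DecidableEq V] in
theorem Agree.trans {f g : ℤ} {τ σ ρ : V → ℤ} (hgf : g ≤ f) (h1 : Agree X g τ σ)
    (h2 : Agree X f σ ρ) : Agree X f τ ρ := by
  intro v hv h
  rcases h with h | h
  · have e := h1 v hv (Or.inl (by omega))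
    rw [h2 v hv (Or.inl (by omega)), e]
  · have e := h2 v hv (Or.inr h)
    rw [e, h1 v hv (Or.inr (by omega))]

omit [DecidableEq V] in
theorem exists_opt (h : Sch lt m X s t τ) (w : V → ℤ) :
    ∃ σ, Sch lt m X s t σ ∧ Opt lt m X s t w σ := by
  have key : ∀ k : ℕ, ∃ σ, Sch lt m X s t σ ∧ ∀ f ρ, t - k ≤ f → Sch lt m X s t ρ →
      Agree X f σ ρ → slotSum w X ρ f ≤ slotSum w X σ f := by
    intro k
    induction k with
    | zero =>
      refine ⟨τ, h, fun f ρ hf hρ _ => ?_⟩
      have e : ∀ σ, Sch lt m X s t σ → slotSum w X σ f = 0 := fun σ hσ =>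
        sum_eq_zero fun v hv => by
          have h1 := mem_filter.1 hv
          have := hσ.hi v h1.1
          omega
      rw [e ρ hρ, e τ h]
    | succ k ih =>
      obtain ⟨σ, hσ, hopt⟩ := ih
      obtain ⟨z, ⟨σ', hσ', hag, hz⟩, hmax⟩ := Int.exists_greatest_of_bdd
        (P := fun z => ∃ ρ, Sch lt m X s t ρ ∧ Agree X (t - k - 1) σ ρ ∧
          slotSum w X ρ (t - k - 1) = z)
        ⟨∑ v ∈ X, |w v|, by
          rintro z ⟨ρ, -, -, rfl⟩
          exact (sum_le_sum fun v _ => le_abs_self (w v)).trans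
            (sum_le_sum_of_subset_of_nonneg (filter_subset _ _) fun v _ _ => abs_nonneg _)⟩
        ⟨_, σ, hσ, fun _ _ _ => rfl, rfl⟩
      refine ⟨σ', hσ', fun f ρ hf hρ hρ' => ?_⟩
      push_cast at hf
      rcases eq_or_lt_of_le (show t - k - 1 ≤ f by omega) with h1 | h1
      · subst h1
        rw [hz]
        exact hmax _ ⟨ρ, hρ, hag.trans le_rfl hρ', rfl⟩
      · have e : slotSum w X σ' f = slotSum w X σ f := by
          refine sum_congr (filter_congr fun v hv => ⟨fun h2 => ?_, fun h2 => ?_⟩) fun _ _ => rfl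
          · rw [← hag v hv (Or.inr (by omega)), h2]
          · rw [hag v hv (Or.inl (by omega)), h2]
        rw [e]
        exact hopt f ρ (by omega) hρ (hag.trans h1.le hρ')
  obtain ⟨σ, hσ, hopt⟩ := key (t - s).toNat
  refine ⟨σ, hσ, fun f ρ hρ hag => ?_⟩
  by_cases hf : t - (t - s).toNat ≤ f
  · exact hopt f ρ hf hρ hag
  · have e : ∀ σ, Sch lt m X s t σ → slotSum w X σ f = 0 := fun σ hσ =>
      sum_eq_zero fun v hv => by
        have h1 := mem_filter.1 hv
        have := hσ.lo v h1.1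
        omega
    rw [e ρ hρ, e σ hσ]

theorem slotSum_swap (w : V → ℤ) {x y : V} (hx : x ∈ X) (hy : y ∈ X) (hxy : τ x < τ y) :
    slotSum w X (fun v => τ (Equiv.swap x y v)) (τ y) = slotSum w X τ (τ y) - w y + w x := by
  have h1 : slotSum w X (fun v => τ (Equiv.swap x y v)) (τ y) =
      ∑ v ∈ X.filter (fun v => τ v = τ y), w (Equiv.swap x y v) := by
    refine sum_bij (fun v _ => Equiv.swap x y v) ?_ ?_ ?_ ?_
    · intro v hv
      rw [mem_filter] at hv ⊢
      exact ⟨swap_mem hx hy hv.1, hv.2⟩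
    · intro a _ b _ hab
      exact (Equiv.swap x y).injective hab
    · intro b hb
      rw [mem_filter] at hb
      refine ⟨Equiv.swap x y b, ?_, by simp⟩
      rw [mem_filter]
      exact ⟨swap_mem hx hy hb.1, by simpa using hb.2⟩
    · intro a _
      simp
  have hyS : y ∈ X.filter (fun v => τ v = τ y) := mem_filter.2 ⟨hy, rfl⟩
  rw [h1, slotSum, ← add_sum_erase _ _ hyS, ← add_sum_erase _ _ hyS, Equiv.swap_apply_right]
  have h2 : ∑ v ∈ (X.filter fun v => τ v = τ y).erase y, w (Equiv.swap x y v) =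
      ∑ v ∈ (X.filter fun v => τ v = τ y).erase y, w v := by
    refine sum_congr rfl fun v hv => ?_
    rw [mem_erase, mem_filter] at hv
    rw [Equiv.swap_apply_of_ne_of_ne _ hv.1]
    rintro rfl
    omega
  rw [h2]
  ring

/-- After any rearrangement `σ` of the slots before `f`, no job of slot `f` can be swapped with a
heavier earlier job. -/
theorem Opt.no_swap' {w : V → ℤ} (ho : Opt lt m X s t w τ) {σ : V → ℤ} (hσ : Sch lt m X s t σ)
    {x y : V} (hx : x ∈ X) (hy : y ∈ X) (hxy : σ x < σ y)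
    (hag : ∀ v ∈ X, σ y ≤ τ v ∨ σ y ≤ σ v → σ v = τ v)
    (hs : ∀ z ∈ X, lt x z → σ y < σ z) (hp : ∀ z ∈ X, lt z y → σ z < σ x) : w x ≤ w y := by
  have h1 := ho (σ y) _ (hσ.swap hx hy hxy hs hp) (by
    intro v hv h
    by_cases h2 : v = x
    · subst h2
      simp only [Equiv.swap_apply_left] at h
      rcases h with h | h
      · have := hag v hv (Or.inl h.le)
        omega
      · omega
    by_cases h3 : v = y
    · subst h3
      simp only [Equiv.swap_apply_right] at h
      have := hag v hv (Or.inr le_rfl)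
      omega
    simp only [Equiv.swap_apply_of_ne_of_ne h2 h3] at h ⊢
    exact hag v hv (h.imp le_of_lt le_of_lt))
  rw [slotSum_swap w hx hy hxy] at h1
  have e : slotSum w X σ (σ y) = slotSum w X τ (σ y) := by
    refine sum_congr (filter_congr fun v hv => ⟨fun h2 => ?_, fun h2 => ?_⟩) fun _ _ => rfl
    · rw [← hag v hv (Or.inr h2.ge), h2]
    · rw [hag v hv (Or.inl h2.ge), h2]
  omega

theorem Opt.no_swap {w : V → ℤ} (h : Sch lt m X s t τ) (ho : Opt lt m X s t w τ)
    {x y : V} (hx : x ∈ X) (hy : y ∈ X) (hxy : τ x < τ y)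
    (hs : ∀ z ∈ X, lt x z → τ y < τ z) (hp : ∀ z ∈ X, lt z y → τ z < τ x) : w x ≤ w y :=
  ho.no_swap' h hx hy hxy (fun _ _ _ => rfl) hs hp

end Vale.Agent.P324
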