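import Vale.Agent.P324.Core1

/-!
The cut lemma: in a schedule without an improving swap for a down-set `L` there is a slot such
that all earlier jobs outside `L` precede a job of the slot and all later jobs in `L` follow one.
-/

namespace Vale.Agent.P324

open Finset

variable {V : Type*} {lt : V → V → Prop} {m : ℕ} {X : Finset V} {s t : ℤ} {τ : V → ℤ}
  {L : V → Prop}

/-- Every job outside `L` before slot `f` precedes a job of slot `f`. -/
def GoodL (lt : V → V → Prop) (X : Finset V) (τ : V → ℤ) (L : V → Prop) (f : ℤ) : Prop :=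
  ∀ h ∈ X, ¬ L h → τ h < f → ∃ z ∈ X, τ z = f ∧ lt h z

/-- Every job in `L` after slot `f` follows a job of slot `f`. -/
def GoodR (lt : V → V → Prop) (X : Finset V) (τ : V → ℤ) (L : V → Prop) (f : ℤ) : Prop :=
  ∀ c ∈ X, L c → f < τ c → ∃ z ∈ X, τ z = f ∧ lt z c

/-- No job outside `L` can be swapped with a later job in `L`. -/
def NoSwap (lt : V → V → Prop) (X : Finset V) (τ : V → ℤ) (L : V → Prop) : Prop :=
  ∀ x ∈ X, ∀ y ∈ X, ¬ L x → L y → τ x < τ y → (∀ z ∈ X, lt x z → τ y < τ z) →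
    (∀ z ∈ X, lt z y → τ z < τ x) → False

theorem back_rule (htr : ∀ a b c, lt a b → lt b c → lt a c) (h : Sch lt m X s t τ)
    (hL : ∀ u ∈ X, ∀ v ∈ X, lt u v → L v → L u) (hns : NoSwap lt X τ L) {c : V} (hc : c ∈ X)
    (hcL : L c) {g : ℤ} (hg : ∀ z ∈ X, lt z c → τ z < g) :
    ∀ x ∈ X, ¬ L x → g ≤ τ x → τ x < τ c → ∃ z ∈ X, τ z = τ c ∧ lt x z := by
  have key : ∀ k : ℕ, ∀ x ∈ X, ¬ L x → g ≤ τ x → τ x < τ c → τ c - τ x ≤ k →
      ∃ z ∈ X, τ z = τ c ∧ lt x z := by
    intro k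
    induction k with
    | zero => intro x _ _ _ h1 h2; omega
    | succ k ih =>
      intro x hx hxL h1 h2 h3
      by_contra hcon
      refine hns x hx c hc hxL hcL h2 (fun z hz hxz => ?_) (fun z hz hzc => ?_)
      · by_contra h4
        have h5 := h.mono x hx z hz hxz
        rcases eq_or_lt_of_le (not_lt.1 h4) with h6 | h6
        · exact hcon ⟨z, hz, h6, hxz⟩
        · obtain ⟨z', hz', h7, h8⟩ := ih z hz (fun h7 => hxL (hL x hx z hz hxz h7)) (by omega) h6
            (by push_cast at h3; omega)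
          exact hcon ⟨z', hz', h7, htr _ _ _ hxz h8⟩
      · have := hg z hz hzc
        omega
  intro x hx hxL h1 h2
  exact key (τ c - τ x).toNat x hx hxL h1 h2 (by omega)

theorem fwd_rule (htr : ∀ a b c, lt a b → lt b c → lt a c) (h : Sch lt m X s t τ)
    (hL : ∀ u ∈ X, ∀ v ∈ X, lt u v → L v → L u) (hns : NoSwap lt X τ L) {x : V} (hx : x ∈ X)
    (hxL : ¬ L x) (hsink : ∀ z ∈ X, ¬ lt x z) : GoodR lt X τ L (τ x) := by
  have key : ∀ k : ℕ, ∀ c ∈ X, L c → τ x < τ c → τ c - τ x ≤ k →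
      ∃ z ∈ X, τ z = τ x ∧ lt z c := by
    intro k
    induction k with
    | zero => intro c _ _ h1 h2; omega
    | succ k ih =>
      intro c hc hcL h2 h3
      by_contra hcon
      refine hns x hx c hc hxL hcL h2 (fun z hz hxz => absurd hxz (hsink z hz))
        (fun z hz hzc => ?_)
      by_contra h4
      have h5 := h.mono z hz c hc hzc
      rcases eq_or_lt_of_le (not_lt.1 h4) with h6 | h6
      · exact hcon ⟨z, hz, h6.symm, hzc⟩
      · obtain ⟨z', hz', h7, h8⟩ := ih z hz (hL z hz c hc hzc hcL) h6 (by push_cast at h3; omega)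
        exact hcon ⟨z', hz', h7, htr _ _ _ h8 hzc⟩
  intro c hc hcL h1
  exact key (τ c - τ x).toNat c hc hcL h1 (by omega)

theorem src_rule (htr : ∀ a b c, lt a b → lt b c → lt a c) (h : Sch lt m X s t τ)
    (hL : ∀ u ∈ X, ∀ v ∈ X, lt u v → L v → L u) (hns : NoSwap lt X τ L) {y : V} (hy : y ∈ X)
    (hyL : L y) (hsrc : ∀ z ∈ X, ¬ lt z y) : GoodL lt X τ L (τ y) := fun x hx hxL h1 =>
  back_rule htr h hL hns hy hyL (g := τ x) (fun z hz hzy => absurd hzy (hsrc z hz)) x hx hxL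
    le_rfl h1

/-- The cut lemma. -/
theorem exists_cut (htr : ∀ a b c, lt a b → lt b c → lt a c) (h : Sch lt m X s t τ)
    (hL : ∀ u ∈ X, ∀ v ∈ X, lt u v → L v → L u) (hns : NoSwap lt X τ L) {p q : ℤ} (hpq : p ≤ q)
    (hp : GoodL lt X τ L p) (hq : GoodR lt X τ L q) :
    ∃ f, p ≤ f ∧ f ≤ q ∧ GoodL lt X τ L f ∧ GoodR lt X τ L f := by
  obtain ⟨g, ⟨hg1, hg2, hg3⟩, hmax⟩ := Int.exists_greatest_of_bdd
    (P := fun g => p ≤ g ∧ g ≤ q ∧ GoodL lt X τ L g) ⟨q, fun z hz => hz.2.1⟩ ⟨p, le_rfl, hpq, hp⟩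
  refine ⟨g, hg1, hg2, hg3, ?_⟩
  have key : ∀ k : ℕ, ∀ c ∈ X, L c → g < τ c → τ c - g ≤ k → ∃ z ∈ X, τ z = g ∧ lt z c := by
    intro k
    induction k with
    | zero => intro c _ _ h1 h2; omega
    | succ k ih =>
      intro c hc hcL h1 h2
      by_contra hcon
      have hpre : ∀ z ∈ X, lt z c → τ z < g := by
        intro z hz hzc
        by_contra h4
        have h5 := h.mono z hz c hc hzc
        rcases eq_or_lt_of_le (not_lt.1 h4) with h6 | h6
        · exact hcon ⟨z, hz, h6.symm, hzc⟩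
        · obtain ⟨z', hz', h7, h8⟩ := ih z hz (hL z hz c hc hzc hcL) h6
            (by push_cast at h2; omega)
          exact hcon ⟨z', hz', h7, htr _ _ _ h8 hzc⟩
      have hcq : τ c ≤ q := by
        by_contra h4
        obtain ⟨z, hz, h5, h6⟩ := hq c hc hcL (not_le.1 h4)
        have := hpre z hz h6
        omega
      have hB := back_rule htr h hL hns hc hcL hpre
      have hgood : GoodL lt X τ L (τ c) := by
        intro x hx hxL h3
        by_cases h4 : g ≤ τ x
        · exact hB x hx hxL h4 h3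
        · obtain ⟨z, hz, h5, h6⟩ := hg3 x hx hxL (not_le.1 h4)
          obtain ⟨z', hz', h7, h8⟩ := hB z hz (fun h7 => hxL (hL x hx z hz h6 h7)) h5.ge
            (by omega)
          exact ⟨z', hz', h7, htr _ _ _ h6 h8⟩
      have := hmax (τ c) ⟨by omega, hcq, hgood⟩
      omega
  intro c hc hcL h1
  exact key (τ c - g).toNat c hc hcL h1 (by omega)

end Vale.Agent.P324
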