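import Vale.Agent.P324.Core2
import Mathlib.Data.Finset.Max

/-!
Descriptions of the job sets of intervals, their invariants, and duality.
-/

namespace Vale.Agent.P324

open Finset

variable {V : Type*} [Fintype V] [DecidableEq V] {lt : V → V → Prop} [DecidableRel lt]
  {r : V → ℤ} {m : ℕ} {X : Finset V} {s t : ℤ} {τ : V → ℤ}

/-- Strict predecessors of a set. -/
def pre (lt : V → V → Prop) [DecidableRel lt] (A : Finset V) : Finset V :=
  univ.filter fun u => ∃ a ∈ A, lt u a

/-- Strict successors of a set. -/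
def post (lt : V → V → Prop) [DecidableRel lt] (A : Finset V) : Finset V :=
  univ.filter fun u => ∃ a ∈ A, lt a u

omit [DecidableEq V] in
@[simp] theorem mem_pre {A : Finset V} {u : V} : u ∈ pre lt A ↔ ∃ a ∈ A, lt u a := by
  simp [pre]

omit [DecidableEq V] in
@[simp] theorem mem_post {A : Finset V} {u : V} : u ∈ post lt A ↔ ∃ a ∈ A, lt a u := by
  simp [post]

theorem Term.mono {k k' : ℕ} {A : Finset V} (h : Term lt r k A) (hk : k ≤ k') :
    Term lt r k' A := by
  induction hk with
  | refl => exact h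
  | step _ ih => exact ih.succ

theorem Term.biUnion (g : V → Finset V) (hg : ∀ v, Term lt r 0 (g v)) (A : Finset V) :
    Term lt r A.card (A.biUnion g) := by
  induction A using Finset.induction_on with
  | empty => exact Term.empty
  | insert a A ha ih =>
    rw [card_insert_of_notMem ha, biUnion_insert]
    exact ((hg a).mono (Nat.zero_le _)).union ih

theorem Term.of_card {A : Finset V} {k : ℕ} (h : A.card ≤ k) : Term lt r k A := by
  have := Term.biUnion (lt := lt) (r := r) (fun v => {v}) Term.single A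
  rw [biUnion_singleton_eq_self] at this
  exact this.mono h

theorem Term.pre_of_card {A : Finset V} {k : ℕ} (h : A.card ≤ k) :
    Term lt r k (P324.pre lt A) := by
  have := Term.biUnion (lt := lt) (r := r) _ Term.pre A
  have e : P324.pre lt A = A.biUnion fun v => Finset.univ.filter fun u => lt u v := by
    ext u
    simp
  rw [e]
  exact this.mono h

theorem Term.post_of_card {A : Finset V} {k : ℕ} (h : A.card ≤ k) :
    Term lt r k (P324.post lt A) := by
  have := Term.biUnion (lt := lt) (r := r) _ Term.post A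
  have e : P324.post lt A = A.biUnion fun v => Finset.univ.filter fun u => lt v u := by
    ext u
    simp
  rw [e]
  exact this.mono h

/-- The reversed relation. -/
def rev (lt : V → V → Prop) : V → V → Prop := fun a b => lt b a

instance : DecidableRel (rev lt) := fun a b => inferInstanceAs (Decidable (lt b a))

theorem Term.toRev {k : ℕ} {A : Finset V} (h : Term lt r k A) :
    Term (rev lt) (fun v => - r v) k A := by
  induction h with
  | empty => exact Term.empty
  | univ => exact Term.univ
  | single v => exact Term.single v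
  | pre v => exact Term.post (lt := rev lt) v
  | post v => exact Term.pre (lt := rev lt) v
  | low v => simpa using Term.high (lt := rev lt) (r := fun v => - r v) v
  | high v => simpa using Term.low (lt := rev lt) (r := fun v => - r v) v
  | succ _ ih => exact ih.succ
  | union _ _ ih ih' => exact ih.union ih'
  | inter _ _ ih ih' => exact ih.inter ih'
  | sdiff _ _ ih ih' => exact ih.sdiff ih'

theorem Term.ofRev {k : ℕ} {A : Finset V} (h : Term (rev lt) (fun v => - r v) k A) :
    Term lt r k A := by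
  induction h with
  | empty => exact Term.empty
  | univ => exact Term.univ
  | single v => exact Term.single v
  | pre v => exact Term.post (lt := lt) v
  | post v => exact Term.pre (lt := lt) v
  | low v => simpa using Term.high (lt := lt) (r := r) v
  | high v => simpa using Term.low (lt := lt) (r := r) v
  | succ _ ih => exact ih.succ
  | union _ _ ih ih' => exact ih.union ih'
  | inter _ _ ih ih' => exact ih.inter ih'
  | sdiff _ _ ih ih' => exact ih.sdiff ih'

omit [Fintype V] [DecidableRel lt] in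
theorem Dec.ofRev {F G : Finset V → Prop} (hFG : ∀ A, F A → G A) {l : ℕ}
    (h : Dec (rev lt) m F X l) : Dec lt m G X l := by
  induction h with
  | nil => exact Dec.nil
  | @node X₁ S X₂ l₁ l₂ h1 h2 h3 _ _ h6 h7 h8 h9 h10 h11 h12 h13 ih1 ih2 =>
    have := Dec.node (hFG _ h3) (hFG _ h2) (hFG _ h1) ih2 ih1 h6
      (fun a ha b hb => h7 b hb a ha) h10.symm h9.symm h8.symm (fun a ha b hb => h13 b hb a ha)
      (fun a ha b hb => h12 b hb a ha) (fun a ha b hb => h11 b hb a ha)
    have e1 : X₁ ∪ S ∪ X₂ = X₂ ∪ S ∪ X₁ := by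
      ext v
      simp only [mem_union]
      tauto
    rw [e1, show l₁ + 1 + l₂ = l₂ + 1 + l₁ by omega]
    exact this

omit [Fintype V] [DecidableEq V] [DecidableRel lt] in
theorem Sch.toRev (h : Sch lt m X s t τ) : Sch (rev lt) m X (-t) (-s) (fun v => - τ v) where
  lo v hv := by have := h.hi v hv; omega
  hi v hv := by have := h.lo v hv; omega
  cap i := by
    refine le_trans (le_of_eq ?_) (h.cap (-i))
    exact congrArg _ (filter_congr fun v _ => by omega)
  mono u hu v hv huv := by have := h.mono v hv u hu huv; omega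

omit [Fintype V] [DecidableEq V] [DecidableRel lt] in
theorem Sch.ofRev (h : Sch (rev lt) m X (-t) (-s) τ) : Sch lt m X s t (fun v => - τ v) where
  lo v hv := by have := h.hi v hv; omega
  hi v hv := by have := h.lo v hv; omega
  cap i := by
    refine le_trans (le_of_eq ?_) (h.cap (-i))
    exact congrArg _ (filter_congr fun v _ => by omega)
  mono u hu v hv huv := by have := h.mono v hv u hu huv; omega

/-- The upper set of a description. -/
def uset (lt : V → V → Prop) [DecidableRel lt] (U T L : Finset V) : Finset V :=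
  (U ∩ (pre lt T ∪ L)) \ (T ∪ post lt T)

/-- The lower set of a description. -/
def wset (lt : V → V → Prop) [DecidableRel lt] (W S G : Finset V) : Finset V :=
  (W ∩ (post lt S ∪ G)) \ (S ∪ pre lt S)

theorem mem_uset {U T L : Finset V} {v : V} : v ∈ uset lt U T L ↔
    v ∈ U ∧ ((∃ a ∈ T, lt v a) ∨ v ∈ L) ∧ v ∉ T ∧ ∀ a ∈ T, ¬ lt a v := by
  simp [uset, and_assoc]

theorem mem_wset {W S G : Finset V} {v : V} : v ∈ wset lt W S G ↔
    v ∈ W ∧ ((∃ a ∈ S, lt a v) ∨ v ∈ G) ∧ v ∉ S ∧ ∀ a ∈ S, ¬ lt v a := by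
  simp [wset, and_assoc]

theorem uset_rev (U T L : Finset V) : uset (rev lt) U T L = wset lt U T L := by
  ext v
  rw [mem_uset, mem_wset]
  rfl

theorem wset_rev (U T L : Finset V) : wset (rev lt) U T L = uset lt U T L := by
  ext v
  rw [mem_uset, mem_wset]
  rfl

theorem uset_fresh (U : Finset V) : uset lt U ∅ univ = U := by
  ext v
  simp [mem_uset]

theorem wset_fresh (W : Finset V) : wset lt W ∅ univ = W := by
  ext v
  simp [mem_wset]

/-- Invariants of the upper side of a description. -/
structure SideU (lt : V → V → Prop) [DecidableRel lt] (r : V → ℤ) (m : ℕ) (X : Finset V)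
    (s t : ℤ) (U T L : Finset V) : Prop where
  termU : Term lt r (m + 8) U
  termL : Term lt r 0 L
  down : ∀ u v, lt u v → v ∈ U → u ∈ U
  init : ∀ u v, r u ≤ r v → v ∈ L → u ∈ L
  card : T.card ≤ m
  anti : ∀ a ∈ T, ∀ b ∈ T, ¬ lt a b
  sub : ∀ a ∈ T, ∀ u, lt u a → u ∈ U
  inv : ∀ σ, Sch lt m X s t σ → ∀ a ∈ T, ∀ v ∈ X, (∀ z ∈ X, ¬ lt v z) → (∀ b ∈ T, ¬ lt v b) →
    r a < r v → ∃ u ∈ X, lt u a ∧ σ v ≤ σ u

/-- Invariants of the lower side of a description. -/
structure SideW (lt : V → V → Prop) [DecidableRel lt] (r : V → ℤ) (m : ℕ) (X : Finset V)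
    (s t : ℤ) (W S G : Finset V) : Prop where
  termW : Term lt r (m + 8) W
  termG : Term lt r 0 G
  up : ∀ u v, lt u v → u ∈ W → v ∈ W
  fin : ∀ u v, r u ≤ r v → u ∈ G → v ∈ G
  card : S.card ≤ m
  anti : ∀ a ∈ S, ∀ b ∈ S, ¬ lt a b
  sub : ∀ a ∈ S, ∀ u, lt a u → u ∈ W
  inv : ∀ σ, Sch lt m X s t σ → ∀ a ∈ S, ∀ v ∈ X, (∀ z ∈ X, ¬ lt z v) → (∀ b ∈ S, ¬ lt b v) →
    r v < r a → ∃ u ∈ X, lt a u ∧ σ u ≤ σ v

theorem SideU.toRev {U T L : Finset V} (h : SideU lt r m X s t U T L) :
    SideW (rev lt) (fun v => - r v) m X (-t) (-s) U T L where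
  termW := h.termU.toRev
  termG := h.termL.toRev
  up u v huv := h.down v u huv
  fin u v huv := h.init v u (by omega)
  card := h.card
  anti a ha b hb := h.anti b hb a ha
  sub := h.sub
  inv σ hσ a ha v hv h1 h2 h3 := by
    obtain ⟨u, hu, h4, h5⟩ := h.inv _ hσ.ofRev a ha v hv h1 h2 (by omega)
    exact ⟨u, hu, h4, by omega⟩

theorem SideW.toRev {W S G : Finset V} (h : SideW lt r m X s t W S G) :
    SideU (rev lt) (fun v => - r v) m X (-t) (-s) W S G where
  termU := h.termW.toRev
  termL := h.termG.toRev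
  down u v huv := h.up v u huv
  init u v huv := h.fin v u (by omega)
  card := h.card
  anti a ha b hb := h.anti b hb a ha
  sub := h.sub
  inv σ hσ a ha v hv h1 h2 h3 := by
    obtain ⟨u, hu, h4, h5⟩ := h.inv _ hσ.ofRev a ha v hv h1 h2 (by omega)
    exact ⟨u, hu, h4, by omega⟩

theorem SideU.fresh {U : Finset V} (h1 : Term lt r (m + 8) U)
    (h2 : ∀ u v, lt u v → v ∈ U → u ∈ U) : SideU lt r m X s t U ∅ univ where
  termU := h1
  termL := Term.univ
  down := h2
  init _ _ _ _ := mem_univ _
  card := by simp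
  anti := by simp
  sub := by simp
  inv := by simp

theorem SideW.fresh {W : Finset V} (h1 : Term lt r (m + 8) W)
    (h2 : ∀ u v, lt u v → u ∈ W → v ∈ W) : SideW lt r m X s t W ∅ univ where
  termW := h1
  termG := Term.univ
  up := h2
  fin _ _ _ _ := mem_univ _
  card := by simp
  anti := by simp
  sub := by simp
  inv := by simp

/-- The upper side is inherited by the later part of the interval. -/
theorem SideU.right {U T L : Finset V} (hU : SideU lt r m X s t U T L) (h : Sch lt m X s t τ)
    {f : ℤ} (hf : s ≤ f) : SideU lt r m (X.filter fun v => f < τ v) f t U T L :=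
  { hU with
    inv := by
      intro σ hσ a ha v hv h1 h2 h3
      obtain ⟨hvX, hvf⟩ := mem_filter.1 hv
      obtain ⟨u, hu, h4, h5⟩ := hU.inv _ (h.glueRight hf hσ) a ha v hvX (fun z hz hvz => by
        have := h.mono v hvX z hz hvz
        exact h1 z (mem_filter.2 ⟨hz, by omega⟩) hvz) h2 h3
      have h6 := hσ.lo v hv
      simp only [if_pos hvf] at h5
      split_ifs at h5 with h7
      · exact ⟨u, mem_filter.2 ⟨hu, h7⟩, h4, h5⟩
      · omega }

/-- The lower side is inherited by the earlier part of the interval. -/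
theorem SideW.left {W S G : Finset V} (hW : SideW lt r m X s t W S G) (h : Sch lt m X s t τ)
    {f : ℤ} (hf : f ≤ t) : SideW lt r m (X.filter fun v => τ v < f) s f W S G :=
  { hW with
    inv := by
      intro σ hσ a ha v hv h1 h2 h3
      obtain ⟨hvX, hvf⟩ := mem_filter.1 hv
      obtain ⟨u, hu, h4, h5⟩ := hW.inv _ (h.glueLeft hf hσ) a ha v hvX (fun z hz hvz => by
        have := h.mono z hz v hvX hvz
        exact h1 z (mem_filter.2 ⟨hz, by omega⟩) hvz) h2 h3
      have h6 := hσ.hi v hv
      simp only [if_pos hvf] at h5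
      split_ifs at h5 with h7
      · exact ⟨u, mem_filter.2 ⟨hu, h7⟩, h4, h5⟩
      · omega }

theorem SideU.term {U T L : Finset V} (h : SideU lt r m X s t U T L) :
    Term lt r (m + 10) (uset lt U T L) :=
  (h.termU.inter (((Term.pre_of_card h.card).union (h.termL.mono (Nat.zero_le _))).mono
    (by omega))).sdiff
    (((Term.of_card h.card).union (Term.post_of_card h.card)).mono (by omega))

theorem SideW.term {W S G : Finset V} (h : SideW lt r m X s t W S G) :
    Term lt r (m + 10) (wset lt W S G) :=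
  (h.termW.inter (((Term.post_of_card h.card).union (h.termG.mono (Nat.zero_le _))).mono
    (by omega))).sdiff
    (((Term.of_card h.card).union (Term.pre_of_card h.card)).mono (by omega))

/-- `lt` is transitive and `r` is an injective rank compatible with it. -/
structure Ord (lt : V → V → Prop) (r : V → ℤ) : Prop where
  tr : ∀ a b c, lt a b → lt b c → lt a c
  inj : ∀ a b, r a = r b → a = b
  mono : ∀ a b, lt a b → r a < r b

omit [Fintype V] [DecidableEq V] [DecidableRel lt] in
theorem Ord.toRev (h : Ord lt r) : Ord (rev lt) (fun v => - r v) where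
  tr a b c h1 h2 := h.tr c b a h2 h1
  inj a b e := h.inj a b (by omega)
  mono a b h1 := by have := h.mono b a h1; omega

theorem SideU.uset_down (ho : Ord lt r) {U T L : Finset V} (h : SideU lt r m X s t U T L)
    {u v : V} (huv : lt u v) (hv : v ∈ uset lt U T L) : u ∈ uset lt U T L := by
  rw [mem_uset] at hv ⊢
  obtain ⟨h1, h2, h3, h4⟩ := hv
  refine ⟨h.down u v huv h1, ?_, fun h5 => h4 u h5 huv, fun a ha h5 => h4 a ha (ho.tr _ _ _ h5 huv)⟩
  rcases h2 with ⟨a, ha, h5⟩ | h2
  · exact Or.inl ⟨a, ha, ho.tr _ _ _ huv h5⟩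
  · exact Or.inr (h.init u v (ho.mono u v huv).le h2)

theorem SideW.wset_up (ho : Ord lt r) {W S G : Finset V} (h : SideW lt r m X s t W S G)
    {u v : V} (huv : lt u v) (hu : u ∈ wset lt W S G) : v ∈ wset lt W S G := by
  rw [mem_wset] at hu ⊢
  obtain ⟨h1, h2, h3, h4⟩ := hu
  refine ⟨h.up u v huv h1, ?_, fun h5 => h4 v h5 huv, fun a ha h5 => h4 a ha (ho.tr _ _ _ huv h5)⟩
  rcases h2 with ⟨a, ha, h5⟩ | h2
  · exact Or.inl ⟨a, ha, ho.tr _ _ _ h5 huv⟩
  · exact Or.inr (h.fin u v (ho.mono u v huv).le h2)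

theorem SideU.pre_mem (ho : Ord lt r) {U T L : Finset V} (h : SideU lt r m X s t U T L)
    {u a : V} (ha : a ∈ T) (hua : lt u a) : u ∈ uset lt U T L :=
  mem_uset.2 ⟨h.sub a ha u hua, Or.inl ⟨a, ha, hua⟩, fun h1 => h.anti u h1 a ha hua,
    fun b hb h1 => h.anti b hb a ha (ho.tr _ _ _ h1 hua)⟩

theorem SideW.post_mem (ho : Ord lt r) {W S G : Finset V} (h : SideW lt r m X s t W S G)
    {u a : V} (ha : a ∈ S) (hua : lt a u) : u ∈ wset lt W S G :=
  mem_wset.2 ⟨h.sub a ha u hua, Or.inl ⟨a, ha, hua⟩, fun h1 => h.anti a ha u h1 hua,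
    fun b hb h1 => h.anti a ha b hb (ho.tr _ _ _ hua h1)⟩

omit [Fintype V] [DecidableRel lt] in
/-- Assembling a node from a schedule and a slot. -/
theorem Dec.of_slot {F : Finset V → Prop} (h : Sch lt m X s t τ) (f : ℤ) {l₁ l₂ : ℕ}
    (h1 : F (X.filter fun v => τ v < f)) (h2 : F (X.filter fun v => τ v = f))
    (h3 : F (X.filter fun v => f < τ v)) (h4 : Dec lt m F (X.filter fun v => τ v < f) l₁)
    (h5 : Dec lt m F (X.filter fun v => f < τ v) l₂) : Dec lt m F X (l₁ + 1 + l₂) := by
  have key : ∀ (p q : V → Prop) [DecidablePred p] [DecidablePred q],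
      (∀ a b, p a → q b → τ a ≤ τ b) → ∀ a ∈ X.filter p, ∀ b ∈ X.filter q, ¬ lt b a := by
    intro p q _ _ hpq a ha b hb hba
    have h6 := h.mono b (mem_filter.1 hb).1 a (mem_filter.1 ha).1 hba
    have h7 := hpq a b (mem_filter.1 ha).2 (mem_filter.1 hb).2
    omega
  have := Dec.node h1 h2 h3 h4 h5 (h.cap f)
    (fun a ha b hb => key _ _ (fun a b h6 h7 => by omega) b hb a ha)
    (disjoint_filter.2 fun v _ h6 h7 => by omega) (disjoint_filter.2 fun v _ h6 h7 => by omega)
    (disjoint_filter.2 fun v _ h6 h7 => by omega) (key _ _ fun a b h6 h7 => by omega)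
    (key _ _ fun a b h6 h7 => by omega) (key _ _ fun a b h6 h7 => by omega)
  have e : (X.filter fun v => τ v < f) ∪ (X.filter fun v => τ v = f) ∪
      (X.filter fun v => f < τ v) = X := by
    ext v
    simp only [mem_union, mem_filter]
    constructor
    · tauto
    · intro hv
      rcases lt_trichotomy (τ v) f with h6 | h6 | h6 <;> simp [hv, h6]
  rwa [e] at this

end Vale.Agent.P324
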