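import Vale.Agent.P324.Core3

/-!
The cut along the predecessors of the upper boundary slot.
-/

namespace Vale.Agent.P324

open Finset

/-- The induction claim for intervals of `l` slots. -/
def Claim (V : Type*) [Fintype V] [DecidableEq V] (m l : ℕ) : Prop :=
  ∀ (lt : V → V → Prop) [DecidableRel lt] (r : V → ℤ), Ord lt r →
    ∀ (X : Finset V) (s t : ℤ) (τ : V → ℤ) (U T L W S G : Finset V), t = s + l + 1 →
      Sch lt m X s t τ → SideU lt r m X s t U T L → SideW lt r m X s t W S G →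
      X = uset lt U T L ∩ wset lt W S G → (Term lt r (m + 6) U ∨ Term lt r (m + 6) W) →
      Dec lt m (Term lt r (m + 11)) X l

variable {V : Type*} [Fintype V] [DecidableEq V] {lt : V → V → Prop} [DecidableRel lt]
  {r : V → ℤ} {m : ℕ} {X : Finset V} {s t : ℤ} {τ : V → ℤ}

theorem bcut {l : ℕ} (IH : ∀ l' < l, Claim V m l') (ho : Ord lt r) (hl : t = s + l + 1)
    (h : Sch lt m X s t τ) {U T L W S G : Finset V} (hU : SideU lt r m X s t U T L)
    (hW : SideW lt r m X s t W S G) (hX : X = uset lt U T L ∩ wset lt W S G) {S' E : Finset V}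
    (hS' : S'.card ≤ m) (hE : E.card ≤ 1) (hS'W : ∀ a ∈ S', ∀ v, lt a v → v ∈ wset lt W S G)
    (hEX : E ⊆ X) (hcov : ∀ v ∈ X, (∃ a ∈ T, lt v a) ∨ (∃ a ∈ S', lt a v) ∨ v ∈ E) :
    Dec lt m (Term lt r (m + 11)) X l := by
  rcases Nat.eq_zero_or_pos l with h0 | hpos
  · have : X = ∅ := eq_empty_of_forall_notMem fun v hv => by
      have h1 := h.lo v hv
      have h2 := h.hi v hv
      omega
    rw [this, h0]
    exact Dec.nil
  have hXm : ∀ v, v ∈ X ↔ v ∈ uset lt U T L ∧ v ∈ wset lt W S G := fun v => by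
    rw [hX, mem_inter]
  obtain ⟨σ, hσ, hopt⟩ := exists_opt h (fun v => if ∃ a ∈ T, lt v a then 0 else 1)
  have hL : ∀ u ∈ X, ∀ v ∈ X, lt u v → (∃ a ∈ T, lt v a) → ∃ a ∈ T, lt u a :=
    fun u _ v _ huv ⟨a, ha, hva⟩ => ⟨a, ha, ho.tr _ _ _ huv hva⟩
  have hns : NoSwap lt X σ (fun v => ∃ a ∈ T, lt v a) := by
    intro x hx y hy h1 h2 h3 h4 h5
    have := hopt.no_swap hσ hx hy h3 h4 h5
    simp only [if_neg h1, if_pos h2] at this
    omega
  obtain ⟨f, hf1, hf2, hgl, hgr⟩ := exists_cut ho.tr hσ hL hns (p := s + 1) (q := t - 1) (by omega)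
    (fun v hv _ h1 => by have := hσ.lo v hv; omega) (fun v hv _ h1 => by have := hσ.hi v hv; omega)
  set A := X.filter (fun v => σ v = f) with hA
  have hAm : ∀ v, v ∈ A ↔ v ∈ X ∧ σ v = f := fun v => mem_filter
  have hAc : A.card ≤ m := hσ.cap f
  -- the left child
  set U' := (pre lt T ∪ pre lt A) \ (A ∪ post lt A) with hU'
  have hU'm : ∀ v, v ∈ U' ↔ ((∃ a ∈ T, lt v a) ∨ ∃ a ∈ A, lt v a) ∧ v ∉ A ∧ ∀ a ∈ A, ¬ lt a v := by
    intro v
    simp [hU']
  have hU't : Term lt r (m + 6) U' :=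
    (((Term.pre_of_card hU.card).union (Term.pre_of_card hAc)).sdiff
      ((Term.of_card hAc).union (Term.post_of_card hAc))).mono (by omega)
  have hU'd : ∀ u v, lt u v → v ∈ U' → u ∈ U' := by
    intro u v huv hv
    rw [hU'm] at hv ⊢
    obtain ⟨h1, h2, h3⟩ := hv
    refine ⟨h1.imp (fun ⟨a, ha, h4⟩ => ⟨a, ha, ho.tr _ _ _ huv h4⟩)
      (fun ⟨a, ha, h4⟩ => ⟨a, ha, ho.tr _ _ _ huv h4⟩), fun h4 => h3 u h4 huv,
      fun a ha h4 => h3 a ha (ho.tr _ _ _ h4 huv)⟩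
  have e1 : X.filter (fun v => σ v < f) = uset lt U' ∅ univ ∩ wset lt W S G := by
    ext v
    rw [uset_fresh, mem_inter, mem_filter, hU'm]
    constructor
    · rintro ⟨hv, h1⟩
      refine ⟨⟨?_, fun h2 => ?_, fun a ha h2 => ?_⟩, ((hXm v).1 hv).2⟩
      · by_cases h2 : ∃ a ∈ T, lt v a
        · exact Or.inl h2
        · obtain ⟨z, hz, h3, h4⟩ := hgl v hv h2 h1
          exact Or.inr ⟨z, (hAm z).2 ⟨hz, h3⟩, h4⟩
      · have := ((hAm v).1 h2).2
        omega
      · have h3 := (hAm a).1 ha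
        have := hσ.mono a h3.1 v hv h2
        omega
    · rintro ⟨⟨h1, h2, h3⟩, h4⟩
      have hv : v ∈ X := by
        refine (hXm v).2 ⟨?_, h4⟩
        rcases h1 with ⟨a, ha, h5⟩ | ⟨a, ha, h5⟩
        · exact hU.pre_mem ho ha h5
        · exact hU.uset_down ho h5 ((hXm a).1 ((hAm a).1 ha).1).1
      refine ⟨hv, ?_⟩
      rcases lt_trichotomy (σ v) f with h5 | h5 | h5
      · exact h5
      · exact absurd ((hAm v).2 ⟨hv, h5⟩) h2
      · rcases h1 with h1 | ⟨a, ha, h6⟩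
        · obtain ⟨z, hz, h6, h7⟩ := hgr v hv h1 h5
          exact absurd h7 (h3 z ((hAm z).2 ⟨hz, h6⟩))
        · have h7 := (hAm a).1 ha
          have := hσ.mono v hv a h7.1 h6
          omega
  -- the right child
  set W' := (post lt A ∪ ((post lt S' ∪ (E ∪ post lt E)) \ pre lt T)) \ (A ∪ pre lt A) with hW'
  have hW'm : ∀ v, v ∈ W' ↔ ((∃ a ∈ A, lt a v) ∨
      (((∃ a ∈ S', lt a v) ∨ v ∈ E ∨ ∃ a ∈ E, lt a v) ∧ ∀ a ∈ T, ¬ lt v a)) ∧ v ∉ A ∧
      ∀ a ∈ A, ¬ lt v a := by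
    intro v
    simp only [hW', mem_sdiff, mem_union, mem_pre, mem_post, not_or, not_exists, not_and]
  have hW't : Term lt r (m + 6) W' :=
    (((Term.post_of_card (k := m + 4) (by omega)).union
      (((Term.post_of_card (k := m + 2) (by omega)).union
        ((Term.of_card (k := m + 1) (by omega)).union
          (Term.post_of_card (by omega)))).sdiff
        (Term.pre_of_card (hU.card.trans (by omega))))).sdiff
      (((Term.of_card hAc).union (Term.pre_of_card hAc)).mono (by omega)))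
  have hW'u : ∀ u v, lt u v → u ∈ W' → v ∈ W' := by
    intro u v huv hu
    rw [hW'm] at hu ⊢
    obtain ⟨h1, h2, h3⟩ := hu
    refine ⟨?_, fun h4 => h3 v h4 huv, fun a ha h4 => h3 a ha (ho.tr _ _ _ huv h4)⟩
    rcases h1 with ⟨a, ha, h4⟩ | ⟨h1, h4⟩
    · exact Or.inl ⟨a, ha, ho.tr _ _ _ h4 huv⟩
    · refine Or.inr ⟨?_, fun a ha h5 => h4 a ha (ho.tr _ _ _ huv h5)⟩
      rcases h1 with ⟨a, ha, h5⟩ | h1 | ⟨a, ha, h5⟩
      · exact Or.inl ⟨a, ha, ho.tr _ _ _ h5 huv⟩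
      · exact Or.inr (Or.inr ⟨u, h1, huv⟩)
      · exact Or.inr (Or.inr ⟨a, ha, ho.tr _ _ _ h5 huv⟩)
  have e2 : X.filter (fun v => f < σ v) = uset lt U T L ∩ wset lt W' ∅ univ := by
    ext v
    rw [wset_fresh, mem_inter, mem_filter, hW'm]
    constructor
    · rintro ⟨hv, h1⟩
      refine ⟨((hXm v).1 hv).1, ?_, fun h2 => ?_, fun a ha h2 => ?_⟩
      · by_cases h2 : ∃ a ∈ T, lt v a
        · obtain ⟨z, hz, h3, h4⟩ := hgr v hv h2 h1
          exact Or.inl ⟨z, (hAm z).2 ⟨hz, h3⟩, h4⟩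
        · refine Or.inr ⟨?_, fun a ha h3 => h2 ⟨a, ha, h3⟩⟩
          rcases hcov v hv with h3 | h3 | h3
          · exact absurd h3 h2
          · exact Or.inl h3
          · exact Or.inr (Or.inl h3)
      · have := ((hAm v).1 h2).2
        omega
      · have h3 := (hAm a).1 ha
        have := hσ.mono v hv a h3.1 h2
        omega
    · rintro ⟨h4, h1, h2, h3⟩
      have hv : v ∈ X := by
        refine (hXm v).2 ⟨h4, ?_⟩
        rcases h1 with ⟨a, ha, h5⟩ | ⟨⟨a, ha, h5⟩ | h1 | ⟨a, ha, h5⟩, -⟩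
        · exact hW.wset_up ho h5 ((hXm a).1 ((hAm a).1 ha).1).2
        · exact hS'W a ha v h5
        · exact ((hXm v).1 (hEX h1)).2
        · exact hW.wset_up ho h5 ((hXm a).1 (hEX ha)).2
      refine ⟨hv, ?_⟩
      rcases lt_trichotomy (σ v) f with h5 | h5 | h5
      · rcases h1 with ⟨a, ha, h6⟩ | ⟨-, h1⟩
        · have h7 := (hAm a).1 ha
          have := hσ.mono a h7.1 v hv h6
          omega
        · obtain ⟨z, hz, h6, h7⟩ := hgl v hv (fun ⟨a, ha, h6⟩ => h1 a ha h6) h5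
          exact absurd h7 (h3 z ((hAm z).2 ⟨hz, h6⟩))
      · exact absurd ((hAm v).2 ⟨hv, h5⟩) h2
      · exact h5
  have hU1 : SideU lt r m (X.filter fun v => σ v < f) s f U' ∅ univ :=
    SideU.fresh (hU't.mono (by omega)) hU'd
  have hW1 := hW.left hσ (f := f) (by omega)
  have hU2 := hU.right hσ (f := f) (by omega)
  have hW2 : SideW lt r m (X.filter fun v => f < σ v) f t W' ∅ univ :=
    SideW.fresh (hW't.mono (by omega)) hW'u
  have d1 := IH (f - s - 1).toNat (by omega) lt r ho _ s f σ _ _ _ _ _ _ (by omega) (hσ.left f) hU1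
    hW1 e1 (Or.inl hU't)
  have d2 := IH (t - f - 1).toNat (by omega) lt r ho _ f t σ _ _ _ _ _ _ (by omega) (hσ.right f) hU2
    hW2 e2 (Or.inr hW't)
  have := Dec.of_slot hσ f (by rw [e1]; exact hU1.term.inter hW1.term)
    (Term.of_card (hAc.trans (by omega))) (by rw [e2]; exact hU2.term.inter hW2.term) d1 d2
  rwa [show (f - s - 1).toNat + 1 + (t - f - 1).toNat = l by omega] at this

end Vale.Agent.P324
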