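import Vale.Agent.P324.Core4

/-!
The rank threshold cut and the structure theorem.
-/

namespace Vale.Agent.P324

open Finset

variable {V : Type*} [Fintype V] [DecidableEq V] {lt : V → V → Prop} [DecidableRel lt]
  {r : V → ℤ} {m : ℕ} {X : Finset V} {s t : ℤ} {τ : V → ℤ}

theorem acut {l : ℕ} (IH : ∀ l' < l, Claim V m l') (ho : Ord lt r) (hl : t = s + l + 1)
    (h : Sch lt m X s t τ) {U T L W S G : Finset V} (hU : SideU lt r m X s t U T L)
    (hW : SideW lt r m X s t W S G) (hX : X = uset lt U T L ∩ wset lt W S G)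
    (hW0 : Term lt r (m + 6) W)
    (hxy : ∃ x ∈ X, ∃ y ∈ X, (∀ a ∈ T, ¬ lt x a) ∧ (∀ a ∈ S, ¬ lt a y) ∧ r y < r x) :
    Dec lt m (Term lt r (m + 11)) X l := by
  have hXm : ∀ v, v ∈ X ↔ v ∈ uset lt U T L ∧ v ∈ wset lt W S G := fun v => by
    rw [hX, mem_inter]
  obtain ⟨x₀, hx₀, y₀, hy₀, hx₀T, hy₀S, hr₀⟩ := hxy
  obtain ⟨x, hx', hxmax⟩ := exists_max_image (X.filter fun v => ∀ a ∈ T, ¬ lt v a) r
    ⟨x₀, mem_filter.2 ⟨hx₀, hx₀T⟩⟩
  obtain ⟨y, hy', hymin⟩ := exists_min_image (X.filter fun v => ∀ a ∈ S, ¬ lt a v) r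
    ⟨y₀, mem_filter.2 ⟨hy₀, hy₀S⟩⟩
  obtain ⟨hx, hxT⟩ := mem_filter.1 hx'
  obtain ⟨hy, hyS⟩ := mem_filter.1 hy'
  have hyx : r y < r x := by
    have h1 := hxmax x₀ (mem_filter.2 ⟨hx₀, hx₀T⟩)
    have h2 := hymin y₀ (mem_filter.2 ⟨hy₀, hy₀S⟩)
    omega
  have hxsink : ∀ z ∈ X, ¬ lt x z := by
    intro z hz hxz
    have h1 := hxmax z (mem_filter.2 ⟨hz, fun a ha h2 => hxT a ha (ho.tr _ _ _ hxz h2)⟩)
    have h2 := ho.mono _ _ hxz
    omega
  have hysrc : ∀ z ∈ X, ¬ lt z y := by
    intro z hz hzy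
    have h1 := hymin z (mem_filter.2 ⟨hz, fun a ha h2 => hyS a ha (ho.tr _ _ _ h2 hzy)⟩)
    have h2 := ho.mono _ _ hzy
    omega
  have hxL : x ∈ L := ((mem_uset.1 ((hXm x).1 hx).1).2.1).resolve_left
    fun ⟨a, ha, h1⟩ => hxT a ha h1
  have hyG : y ∈ G := ((mem_wset.1 ((hXm y).1 hy).2).2.1).resolve_left
    fun ⟨a, ha, h1⟩ => hyS a ha h1
  obtain ⟨σ, hσ, hopt⟩ := exists_opt h r
  have hL : ∀ u ∈ X, ∀ v ∈ X, lt u v → r v < r x → r u < r x :=
    fun u _ v _ huv h1 => (ho.mono _ _ huv).trans h1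
  have hns : NoSwap lt X σ (fun v => r v < r x) := by
    intro p hp q hq h1 h2 h3 h4 h5
    have := hopt.no_swap hσ hp hq h3 h4 h5
    omega
  have hyxt : σ y ≤ σ x := by
    by_contra h1
    exact hns x hx y hy (lt_irrefl _) hyx (not_le.1 h1) (fun z hz h2 => absurd h2 (hxsink z hz))
      (fun z hz h2 => absurd h2 (hysrc z hz))
  obtain ⟨f, hf1, hf2, hgl, hgr⟩ := exists_cut ho.tr hσ hL hns hyxt
    (src_rule ho.tr hσ hL hns hy hyx hysrc) (fwd_rule ho.tr hσ hL hns hx (lt_irrefl _) hxsink)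
  have hsf : s < f := (hσ.lo y hy).trans_le hf1
  have hft : f < t := hf2.trans_lt (hσ.hi x hx)
  set A := X.filter (fun v => σ v = f) with hA
  have hAm : ∀ v, v ∈ A ↔ v ∈ X ∧ σ v = f := fun v => mem_filter
  have hAc : A.card ≤ m := hσ.cap f
  have hAanti : ∀ a ∈ A, ∀ b ∈ A, ¬ lt a b := by
    intro a ha b hb hab
    have h1 := (hAm a).1 ha
    have h2 := (hAm b).1 hb
    have := hσ.mono a h1.1 b h2.1 hab
    omega
  -- the left child
  set L' : Finset V := univ.filter fun u => r u < r x with hL'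
  have hL'm : ∀ v, v ∈ L' ↔ r v < r x := fun v => by simp [hL']
  have hU1 : SideU lt r m (X.filter fun v => σ v < f) s f U A L' :=
    { termU := hU.termU
      termL := Term.low x
      down := hU.down
      init := fun u v huv hv => (hL'm u).2 (huv.trans_lt ((hL'm v).1 hv))
      card := hAc
      anti := hAanti
      sub := fun a ha u hua =>
        hU.down u a hua (mem_uset.1 ((hXm a).1 ((hAm a).1 ha).1).1).1
      inv := by
        intro ρ hρ a ha v hv h1 h2 h3
        obtain ⟨hvX, hvf⟩ := mem_filter.1 hv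
        obtain ⟨haX, haf⟩ := (hAm a).1 ha
        by_contra hcon
        have hg := hσ.glueLeft hft.le hρ
        have hρv := hρ.hi v hv
        have ea : (if σ a < f then ρ a else σ a) = f := by rw [if_neg (by omega), haf]
        have ev : (if σ v < f then ρ v else σ v) = ρ v := if_pos hvf
        have := hopt.no_swap' hg hvX haX (by rw [ea, ev]; exact hρv) (by
            intro z hz h4
            rw [ea] at h4
            by_cases h5 : σ z < f
            · have := hρ.hi z (mem_filter.2 ⟨hz, h5⟩)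
              rw [if_pos h5] at h4
              omega
            · rw [if_neg h5]) (by
            intro z hz hvz
            rw [ea]
            rcases lt_trichotomy (σ z) f with h4 | h4 | h4
            · exact absurd hvz (h1 z (mem_filter.2 ⟨hz, h4⟩))
            · exact absurd hvz (h2 z ((hAm z).2 ⟨hz, h4⟩))
            · rw [if_neg (by omega)]
              exact h4) (by
            intro z hz hza
            have h4 : σ z < f := by
              have := hσ.mono z hz a haX hza
              omega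
            rw [ev, if_pos h4]
            by_contra h5
            exact hcon ⟨z, mem_filter.2 ⟨hz, h4⟩, hza, not_lt.1 h5⟩)
        omega }
  have e1 : X.filter (fun v => σ v < f) = uset lt U A L' ∩ wset lt W S G := by
    ext v
    rw [mem_inter, mem_filter, mem_uset (T := A), hL'm]
    constructor
    · rintro ⟨hv, h1⟩
      refine ⟨⟨(mem_uset.1 ((hXm v).1 hv).1).1, ?_, fun h2 => ?_, fun a ha h2 => ?_⟩,
        ((hXm v).1 hv).2⟩
      · by_cases h2 : r v < r x
        · exact Or.inr h2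
        · obtain ⟨z, hz, h3, h4⟩ := hgl v hv h2 h1
          exact Or.inl ⟨z, (hAm z).2 ⟨hz, h3⟩, h4⟩
      · have := ((hAm v).1 h2).2
        omega
      · have h3 := (hAm a).1 ha
        have := hσ.mono a h3.1 v hv h2
        omega
    · rintro ⟨⟨h0, h1, h2, h3⟩, h4⟩
      have hv : v ∈ X := by
        refine (hXm v).2 ⟨?_, h4⟩
        rcases h1 with ⟨a, ha, h5⟩ | h1
        · exact hU.uset_down ho h5 ((hXm a).1 ((hAm a).1 ha).1).1
        · have key : ∀ a ∈ T, (a = v ∨ lt a v) → False := by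
            intro a ha hav
            have hra : r a < r x := by
              rcases hav with rfl | h5
              · exact h1
              · exact (ho.mono _ _ h5).trans h1
            obtain ⟨u, hu, h5, h6⟩ := hU.inv σ hσ a ha x hx hxsink hxT hra
            have huv : lt u v := by
              rcases hav with rfl | h7
              · exact h5
              · exact ho.tr _ _ _ h5 h7
            rcases eq_or_lt_of_le (hf2.trans h6) with h7 | h7
            · exact h3 u ((hAm u).2 ⟨hu, h7.symm⟩) huv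
            · obtain ⟨z, hz, h8, h9⟩ := hgr u hu ((ho.mono _ _ h5).trans hra) h7
              exact h3 z ((hAm z).2 ⟨hz, h8⟩) (ho.tr _ _ _ h9 huv)
          exact mem_uset.2 ⟨h0, Or.inr (hU.init v x h1.le hxL), fun h5 => key v h5 (Or.inl rfl),
            fun a ha h5 => key a ha (Or.inr h5)⟩
      refine ⟨hv, ?_⟩
      rcases lt_trichotomy (σ v) f with h5 | h5 | h5
      · exact h5
      · exact absurd ((hAm v).2 ⟨hv, h5⟩) h2
      · rcases h1 with ⟨a, ha, h6⟩ | h1
        · have h7 := (hAm a).1 ha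
          have := hσ.mono v hv a h7.1 h6
          omega
        · obtain ⟨z, hz, h6, h7⟩ := hgr v hv h1 h5
          exact absurd h7 (h3 z ((hAm z).2 ⟨hz, h6⟩))
  -- the right child
  set W' := wset lt W A (univ \ L') with hW'
  have hW'm : ∀ v, v ∈ W' ↔ v ∈ W ∧ ((∃ a ∈ A, lt a v) ∨ ¬ r v < r x) ∧ v ∉ A ∧
      ∀ a ∈ A, ¬ lt v a := by
    intro v
    rw [hW', mem_wset, mem_sdiff, hL'm]
    simp only [mem_univ, true_and]
  have hW't : Term lt r (m + 8) W' :=
    (hW0.inter (((Term.post_of_card (k := m + 5) (by omega)).union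
      ((Term.univ.sdiff (Term.low x)).mono (by omega))))).sdiff
      (((Term.of_card hAc).union (Term.pre_of_card hAc)).mono (by omega))
  have hW'u : ∀ u v, lt u v → u ∈ W' → v ∈ W' := by
    intro u v huv hu
    rw [hW'm] at hu ⊢
    obtain ⟨h0, h1, h2, h3⟩ := hu
    refine ⟨hW.up u v huv h0, ?_, fun h4 => h3 v h4 huv,
      fun a ha h4 => h3 a ha (ho.tr _ _ _ huv h4)⟩
    rcases h1 with ⟨a, ha, h4⟩ | h1
    · exact Or.inl ⟨a, ha, ho.tr _ _ _ h4 huv⟩
    · have := ho.mono _ _ huv
      exact Or.inr (by omega)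
  have e2 : X.filter (fun v => f < σ v) = uset lt U T L ∩ wset lt W' ∅ univ := by
    ext v
    rw [wset_fresh, mem_inter, mem_filter, hW'm]
    constructor
    · rintro ⟨hv, h1⟩
      refine ⟨((hXm v).1 hv).1, (mem_wset.1 ((hXm v).1 hv).2).1, ?_, fun h2 => ?_,
        fun a ha h2 => ?_⟩
      · by_cases h2 : r v < r x
        · obtain ⟨z, hz, h3, h4⟩ := hgr v hv h2 h1
          exact Or.inl ⟨z, (hAm z).2 ⟨hz, h3⟩, h4⟩
        · exact Or.inr h2
      · have := ((hAm v).1 h2).2
        omega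
      · have h3 := (hAm a).1 ha
        have := hσ.mono v hv a h3.1 h2
        omega
    · rintro ⟨h4, h0, h1, h2, h3⟩
      have hv : v ∈ X := by
        refine (hXm v).2 ⟨h4, ?_⟩
        rcases h1 with ⟨a, ha, h5⟩ | h1
        · exact hW.wset_up ho h5 ((hXm a).1 ((hAm a).1 ha).1).2
        · have key : ∀ a ∈ S, (v = a ∨ lt v a) → False := by
            intro a ha hav
            have hra : r x ≤ r a := by
              rcases hav with rfl | h5
              · omega
              · have := ho.mono _ _ h5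
                omega
            obtain ⟨u, hu, h5, h6⟩ := hW.inv σ hσ a ha y hy hysrc hyS (by omega)
            have hvu : lt v u := by
              rcases hav with rfl | h7
              · exact h5
              · exact ho.tr _ _ _ h7 h5
            rcases eq_or_lt_of_le (h6.trans hf1) with h7 | h7
            · exact h3 u ((hAm u).2 ⟨hu, h7⟩) hvu
            · have h8 := ho.mono _ _ h5
              obtain ⟨z, hz, h9, h10⟩ := hgl u hu (by omega) h7
              exact h3 z ((hAm z).2 ⟨hz, h9⟩) (ho.tr _ _ _ hvu h10)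
          exact mem_wset.2 ⟨h0, Or.inr (hW.fin y v (by omega) hyG), fun h5 => key v h5 (Or.inl rfl),
            fun a ha h5 => key a ha (Or.inr h5)⟩
      refine ⟨hv, ?_⟩
      rcases lt_trichotomy (σ v) f with h5 | h5 | h5
      · rcases h1 with ⟨a, ha, h6⟩ | h1
        · have h7 := (hAm a).1 ha
          have := hσ.mono a h7.1 v hv h6
          omega
        · obtain ⟨z, hz, h6, h7⟩ := hgl v hv h1 h5
          exact absurd h7 (h3 z ((hAm z).2 ⟨hz, h6⟩))
      · exact absurd ((hAm v).2 ⟨hv, h5⟩) h2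
      · exact h5
  have hW1 := hW.left hσ hft.le
  have hU2 := hU.right hσ hsf.le
  have hW2 : SideW lt r m (X.filter fun v => f < σ v) f t W' ∅ univ := SideW.fresh hW't hW'u
  have d1 := IH (f - s - 1).toNat (by omega) lt r ho _ s f σ _ _ _ _ _ _ (by omega) (hσ.left f) hU1
    hW1 e1 (Or.inr hW0)
  have d2 : Dec lt m (Term lt r (m + 11)) (X.filter fun v => f < σ v) (t - f - 1).toNat := by
    refine bcut (fun l' hl' => IH l' (by omega)) ho (by omega) (hσ.right f) hU2 hW2 e2 (S' := A)
      (E := (X.filter fun v => f < σ v).filter fun v => v = x) hAc ?_ ?_ (filter_subset _ _) ?_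
    · exact card_le_one.2 fun a ha b hb => (mem_filter.1 ha).2.trans (mem_filter.1 hb).2.symm
    · intro a ha v hav
      rw [wset_fresh, hW'm]
      exact ⟨hW.up a v hav (mem_wset.1 ((hXm a).1 ((hAm a).1 ha).1).2).1, Or.inl ⟨a, ha, hav⟩,
        fun h1 => hAanti a ha v h1 hav, fun b hb h1 => hAanti a ha b hb (ho.tr _ _ _ hav h1)⟩
    · intro v hv
      obtain ⟨hvX, hvf⟩ := mem_filter.1 hv
      by_cases h1 : ∃ a ∈ T, lt v a
      · exact Or.inl h1
      have h2 := hxmax v (mem_filter.2 ⟨hvX, fun a ha h2 => h1 ⟨a, ha, h2⟩⟩)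
      rcases eq_or_lt_of_le h2 with h3 | h3
      · exact Or.inr (Or.inr (mem_filter.2 ⟨hv, ho.inj _ _ h3⟩))
      · obtain ⟨z, hz, h4, h5⟩ := hgr v hvX h3 hvf
        exact Or.inr (Or.inl ⟨z, (hAm z).2 ⟨hz, h4⟩, h5⟩)
  have := Dec.of_slot hσ f (by rw [e1]; exact hU1.term.inter hW1.term)
    (Term.of_card (hAc.trans (by omega))) (by rw [e2]; exact hU2.term.inter hW2.term) d1 d2
  rwa [show (f - s - 1).toNat + 1 + (t - f - 1).toNat = l by omega] at this

theorem claim (V : Type*) [Fintype V] [DecidableEq V] (m l : ℕ) : Claim V m l := by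
  induction l using Nat.strong_induction_on with
  | _ l IH =>
    intro lt _ r ho X s t τ U T L W S G hl h hU hW hX hlev
    by_cases hxy : ∃ x ∈ X, ∃ y ∈ X, (∀ a ∈ T, ¬ lt x a) ∧ (∀ a ∈ S, ¬ lt a y) ∧ r y < r x
    · rcases hlev with h0 | h0
      · obtain ⟨x, hx, y, hy, h1, h2, h3⟩ := hxy
        exact Dec.ofRev (fun A hA => hA.ofRev) (acut IH ho.toRev (by omega) h.toRev hW.toRev
          hU.toRev (by rw [uset_rev, wset_rev, inter_comm, hX]) h0.toRev
          ⟨y, hy, x, hx, h2, h1, by omega⟩)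
      · exact acut IH ho hl h hU hW hX h0 hxy
    · refine bcut IH ho hl h hU hW hX (S' := S)
        (E := X.filter fun v => (∀ a ∈ T, ¬ lt v a) ∧ ∀ a ∈ S, ¬ lt a v) hW.card ?_
        (fun a ha v hav => hW.post_mem ho ha hav) (filter_subset _ _) ?_
      · refine card_le_one.2 fun a ha b hb => ho.inj _ _ ?_
        obtain ⟨ha1, ha2, ha3⟩ := mem_filter.1 ha
        obtain ⟨hb1, hb2, hb3⟩ := mem_filter.1 hb
        by_contra hne
        rcases lt_or_gt_of_ne hne with h1 | h1
        · exact hxy ⟨b, hb1, a, ha1, hb2, ha3, h1⟩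
        · exact hxy ⟨a, ha1, b, hb1, ha2, hb3, h1⟩
      · intro v hv
        by_cases h1 : ∃ a ∈ T, lt v a
        · exact Or.inl h1
        by_cases h2 : ∃ a ∈ S, lt a v
        · exact Or.inr (Or.inl h2)
        exact Or.inr (Or.inr (mem_filter.2 ⟨hv, fun a ha h3 => h1 ⟨a, ha, h3⟩,
          fun a ha h3 => h2 ⟨a, ha, h3⟩⟩))

/-- The structure theorem: a feasible instance has a decomposition tree all of whose job sets are
described by terms of depth at most `m + 11`. -/
theorem dec_of_sch (htr : ∀ a b c, lt a b → lt b c → lt a c) (hinj : Function.Injective r)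
    (hmono : ∀ a b, lt a b → r a < r b) {l : ℕ} (h : Sch lt m univ 0 (l + 1) τ) :
    Dec lt m (Term lt r (m + 11)) univ l :=
  claim V m l lt r ⟨htr, fun _ _ e => hinj e, hmono⟩ univ 0 (l + 1) τ univ ∅ univ univ ∅ univ
    (by omega) h (SideU.fresh (Term.univ.mono (Nat.zero_le _)) fun _ _ _ _ => mem_univ _)
    (SideW.fresh (Term.univ.mono (Nat.zero_le _)) fun _ _ _ _ => mem_univ _)
    (by rw [uset_fresh, wset_fresh, inter_self]) (Or.inl (Term.univ.mono (Nat.zero_le _)))

end Vale.Agent.P324
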