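import Mathlib.Computability.TuringMachine.Computable
import Mathlib.Data.Nat.Bits
import Mathlib.Order.Interval.Finset.Nat
import Mathlib.Data.Fintype.Basic
import Mathlib.Logic.Relation

/-!
Scheduling of unit jobs with precedence constraints on `m` identical machines: instances,
schedules, and their binary codes.
-/

namespace Vale.Agent.P324

/-- A directed graph on the jobs `0, …, n - 1`, given by its adjacency matrix. -/
structure Graph where
  /-- the number of jobs -/
  n : ℕ
  /-- `arc u v` says whether `(u, v)` is an arc -/
  arc : Fin n → Fin n → Bool

/-- The graph has no directed cycle. -/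
def Graph.Acyclic (G : Graph) : Prop :=
  ∀ v, ¬ Relation.TransGen (fun u w => G.arc u w = true) v v

/-- `τ` is a schedule of length `T` on `m` machines: it maps the jobs to `{1, …, T}`, takes each
value at most `m` times, and increases along arcs. -/
def IsSchedule (m : ℕ) (G : Graph) (T : ℕ) (τ : Fin G.n → ℕ) : Prop :=
  (∀ v, τ v ∈ Finset.Icc 1 T) ∧
  (∀ t, (Finset.univ.filter fun v => τ v = t).card ≤ m) ∧
  ∀ u v, G.arc u v = true → τ u < τ v

/-- The number `k` in unary, followed by an end mark. -/
def unary (k : ℕ) : List Bool := List.replicate k true ++ [false]

/-- The code of a graph: the number of jobs in unary, then the adjacency matrix row by row. -/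
def Graph.code (G : Graph) : List Bool :=
  unary G.n ++ (List.ofFn fun u => List.ofFn fun v => G.arc u v).flatten

end Vale.Agent.P324
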