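import Vale.Agent.P324.AlgoCorrect
import Vale.Agent.P324.Defs
import Vale.Agent.Lib.PolyTime.TypedTM2

/-!
From the structure theorem on decomposition trees to polynomial time Turing machines.
-/

namespace Vale.Agent.P324

open List Vale.Agent.Lib.PolyTime

/-! ### Reading the input -/

theorem nW_code (G : Graph) (rest : List Bool) : nW (G.code ++ rest) = G.n := by
  unfold nW Graph.code unary
  generalize G.n = k, (List.ofFn fun u => List.ofFn fun v => G.arc u v).flatten = M
  induction k with
  | zero => simp
  | succ k ih => simp [replicate_succ]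

theorem length_flatten_const {β : Type*} (L : List (List β)) (k : ℕ)
    (h : ∀ x ∈ L, x.length = k) : L.flatten.length = L.length * k := by
  induction L with
  | nil => simp
  | cons x L ih =>
    rw [flatten_cons, length_append, h x mem_cons_self, ih fun y hy => h y (mem_cons_of_mem _ hy),
      length_cons]
    ring

theorem getElem?_flatten_const {β : Type*} (L : List (List β)) (k : ℕ) (rest : List β)
    (h : ∀ x ∈ L, x.length = k) (u v : ℕ) (hu : u < L.length) (hv : v < k) :
    (L.flatten ++ rest)[u * k + v]? = L[u][v]? := by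
  induction L generalizing u with
  | nil => simp at hu
  | cons x L ih =>
    have hx := h x mem_cons_self
    rw [flatten_cons, append_assoc]
    cases u with
    | zero =>
      rw [getElem?_append_left (by omega)]
      simp
    | succ u =>
      rw [getElem?_append_right (by rw [hx, Nat.succ_mul]; omega),
        show (u + 1) * k + v - x.length = u * k + v by rw [hx, Nat.succ_mul]; omega,
        ih (fun y hy => h y (mem_cons_of_mem _ hy)) u (by simpa using hu)]
      simp

theorem rows_length (G : Graph) :
    ∀ x ∈ (List.ofFn fun u => List.ofFn fun v => G.arc u v), x.length = G.n := by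
  intro x hx
  obtain ⟨u, rfl⟩ := mem_ofFn.1 hx
  simp

theorem length_unary (k : ℕ) : (unary k).length = k + 1 := by simp [unary]

theorem arcW_code (G : Graph) (rest : List Bool) (u v : Fin G.n) :
    arcW (G.code ++ rest) u v = G.arc u v := by
  unfold arcW
  rw [nW_code, Graph.code, append_assoc, getD_eq_getElem?_getD,
    getElem?_append_right (by rw [length_unary]; omega), length_unary,
    show G.n + 1 + u * G.n + v - (G.n + 1) = u * G.n + v by omega,
    getElem?_flatten_const _ G.n rest (rows_length G) u v (by simp) v.2]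
  simp

theorem lenW_code (G : Graph) (T : ℕ) : lenW (G.code ++ T.bits) = T := by
  unfold lenW
  rw [nW_code, drop_left', val_bits]
  rw [Graph.code, length_append, length_unary, length_flatten_const _ G.n (rows_length G)]
  simp

/-! ### The transitive closure -/

theorem length_preds (w : List Bool) : (preds w).length = nW w := by simp [preds]

theorem getD_preds (w : List Bool) {v : ℕ} (hv : v < nW w) : (preds w).getD v [] = predL w v := by
  rw [getD_eq_getElem _ _ (by simpa [preds] using hv)]
  simp [preds]

theorem mem_predStep {w : List Bool} {v u : ℕ} {S : List ℕ} :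
    u ∈ predStep w v S ↔ u < nW w ∧ (arcW w u v = true ∨ ∃ x ∈ S, arcW w u x = true) := by
  simp [predStep]

theorem nodup_predL (w : List Bool) (v : ℕ) : (predL w v).Nodup := by
  unfold predL
  cases nW w with
  | zero => exact nodup_nil
  | succ k =>
    rw [Function.iterate_succ_apply']
    exact nodup_range.filter _

theorem predStep_mono {w : List Bool} {v : ℕ} {S S' : List ℕ} (h : S ⊆ S') :
    predStep w v S ⊆ predStep w v S' := by
  intro u hu
  rw [mem_predStep] at hu ⊢
  exact ⟨hu.1, hu.2.imp id fun ⟨x, hx, h'⟩ => ⟨x, h hx, h'⟩⟩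

theorem iter_subset_succ (w : List Bool) (v k : ℕ) :
    (predStep w v)^[k] [] ⊆ (predStep w v)^[k + 1] [] := by
  induction k with
  | zero => exact nil_subset _
  | succ k ih =>
    rw [Function.iterate_succ_apply' _ (k + 1), Function.iterate_succ_apply' _ k]
    refine predStep_mono ?_
    rwa [Function.iterate_succ_apply'] at ih

theorem iter_stable_or (w : List Bool) (v k : ℕ) :
    (predStep w v)^[k + 1] [] ⊆ (predStep w v)^[k] [] ∨
      k + 1 ≤ ((predStep w v)^[k + 1] []).toFinset.card := by
  induction k with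
  | zero =>
    by_cases h : (predStep w v)^[0 + 1] [] ⊆ (predStep w v)^[0] []
    · exact Or.inl h
    · refine Or.inr (Finset.card_pos.2 ?_)
      by_contra h'
      rw [Finset.not_nonempty_iff_eq_empty, toFinset_eq_empty_iff] at h'
      exact h (by rw [h']; exact nil_subset _)
  | succ k ih =>
    by_cases h : (predStep w v)^[k + 1 + 1] [] ⊆ (predStep w v)^[k + 1] []
    · exact Or.inl h
    · right
      rcases ih with ih | ih
      · exfalso
        apply h
        rw [Function.iterate_succ_apply' _ (k + 1), Function.iterate_succ_apply' _ k]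
        refine predStep_mono ?_
        rwa [Function.iterate_succ_apply'] at ih
      · refine lt_of_le_of_lt ih (Finset.card_lt_card ⟨fun x hx => ?_, fun h' => h fun x hx => ?_⟩)
        · exact mem_toFinset.2 (iter_subset_succ w v (k + 1) (mem_toFinset.1 hx))
        · exact mem_toFinset.1 (h' (mem_toFinset.2 hx))

theorem predStep_predL (w : List Bool) (v : ℕ) : predStep w v (predL w v) ⊆ predL w v := by
  rcases iter_stable_or w v (nW w) with h | h
  · rwa [Function.iterate_succ_apply'] at h
  · exfalso
    have : ((predStep w v)^[nW w + 1] []).toFinset ⊆ Finset.range (nW w) := by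
      intro x hx
      rw [mem_toFinset, Function.iterate_succ_apply', mem_predStep] at hx
      exact Finset.mem_range.2 hx.1
    have := Finset.card_le_card this
    rw [Finset.card_range] at this
    omega

theorem ltF_iff (G : Graph) (rest : List Bool) (u v : Fin G.n) :
    ltF G.n (preds (G.code ++ rest)) u v ↔
      Relation.TransGen (fun a b => G.arc a b = true) u v := by
  have hn := nW_code G rest
  unfold ltF ltL
  rw [decide_eq_true_eq, getD_preds _ (lt_of_lt_of_eq v.2 hn.symm)]
  constructor
  · unfold predL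
    generalize nW (G.code ++ rest) = k
    induction k generalizing u with
    | zero => simp
    | succ k ih =>
      rw [Function.iterate_succ_apply', mem_predStep]
      rintro ⟨-, h | ⟨x, hx, h⟩⟩
      · exact .single (by rwa [arcW_code] at h)
      · have hx' : x < G.n := by
          cases k with
          | zero => simp at hx
          | succ k =>
            rw [Function.iterate_succ_apply', mem_predStep, hn] at hx
            exact hx.1
        exact .head (by rw [← arcW_code G rest u ⟨x, hx'⟩]; exact h) (ih ⟨x, hx'⟩ hx)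
  · intro h
    induction h using Relation.TransGen.head_induction_on with
    | single h =>
      exact predStep_predL _ _ (mem_predStep.2 ⟨lt_of_lt_of_eq (Fin.is_lt _) hn.symm, Or.inl (by rwa [arcW_code])⟩)
    | head h _ ih =>
      exact predStep_predL _ _
        (mem_predStep.2 ⟨lt_of_lt_of_eq (Fin.is_lt _) hn.symm, Or.inr ⟨_, ih, by rwa [arcW_code]⟩⟩)

theorem rkF_injective (n : ℕ) (P : List (List ℕ)) (hn : P.length = n) :
    Function.Injective (rkF n P) := by
  intro u v h
  have h' : rkL P u = rkL P v := by simpa [rkF] using h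
  have h2 := congrArg (· % n) h'
  simp only [rkL, hn, Nat.mul_add_mod_self_right, Nat.mod_eq_of_lt u.2, Nat.mod_eq_of_lt v.2] at h2
  exact Fin.ext h2

theorem rkF_lt (G : Graph) (hG : G.Acyclic) (rest : List Bool) (u v : Fin G.n)
    (h : ltF G.n (preds (G.code ++ rest)) u v) :
    rkF G.n (preds (G.code ++ rest)) u < rkF G.n (preds (G.code ++ rest)) v := by
  have hn := nW_code G rest
  have hm : ∀ (x : ℕ) (y : Fin G.n), x ∈ predL (G.code ++ rest) y → ∃ hx : x < G.n,
      Relation.TransGen (fun a b => G.arc a b = true) ⟨x, hx⟩ y := by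
    intro x y hxy
    have hx : x < G.n := by
      unfold predL at hxy
      rw [hn] at hxy
      obtain ⟨k, hk⟩ : ∃ k, G.n = k + 1 := ⟨G.n - 1, by have := y.2; omega⟩
      rw [show (predStep (G.code ++ rest) y)^[G.n] = (predStep (G.code ++ rest) y)^[k + 1] by
        rw [← hk], Function.iterate_succ_apply', mem_predStep, hn] at hxy
      exact hxy.1
    refine ⟨hx, (ltF_iff G rest ⟨x, hx⟩ y).1 ?_⟩
    unfold ltF ltL
    rw [decide_eq_true_eq, getD_preds _ (lt_of_lt_of_eq y.2 hn.symm)]
    exact hxy
  have hm' : ∀ x y : Fin G.n, Relation.TransGen (fun a b => G.arc a b = true) x y →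
      x.val ∈ predL (G.code ++ rest) y := by
    intro x y hxy
    have := (ltF_iff G rest x y).2 hxy
    unfold ltF ltL at this
    rwa [decide_eq_true_eq, getD_preds _ (lt_of_lt_of_eq y.2 hn.symm)] at this
  have huv := (ltF_iff G rest u v).1 h
  have hc : (predL (G.code ++ rest) u).length < (predL (G.code ++ rest) v).length := by
    rw [← toFinset_card_of_nodup (nodup_predL _ _), ← toFinset_card_of_nodup (nodup_predL _ _)]
    refine Finset.card_lt_card ⟨fun x hx => ?_, fun h' => ?_⟩
    · obtain ⟨hx', h1⟩ := hm x u (mem_toFinset.1 hx)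
      exact mem_toFinset.2 (hm' ⟨x, hx'⟩ v (h1.trans huv))
    · obtain ⟨_, h1⟩ := hm u u (mem_toFinset.1 (h' (mem_toFinset.2 (hm' u v huv))))
      exact hG u h1
  unfold rkF rkL
  rw [getD_preds _ (lt_of_lt_of_eq u.2 hn.symm), getD_preds _ (lt_of_lt_of_eq v.2 hn.symm), length_preds, hn, Nat.cast_lt]
  have h1 := Nat.mul_le_mul_right G.n (Nat.succ_le_of_lt hc)
  have h2 := u.2
  rw [Nat.succ_mul] at h1
  omega

/-! ### Schedules -/

theorem IsSchedule.lt_of_transGen {m : ℕ} {G : Graph} {T : ℕ} {τ : Fin G.n → ℕ}
    (h : IsSchedule m G T τ) {u v : Fin G.n}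
    (huv : Relation.TransGen (fun a b => G.arc a b = true) u v) : τ u < τ v := by
  induction huv with
  | single h' => exact h.2.2 _ _ h'
  | tail _ h' ih => exact ih.trans (h.2.2 _ _ h')

theorem IsSchedule.acyclic {m : ℕ} {G : Graph} {T : ℕ} {τ : Fin G.n → ℕ}
    (h : IsSchedule m G T τ) : G.Acyclic := fun _ hv => lt_irrefl _ (h.lt_of_transGen hv)

theorem IsSchedule.mono {m : ℕ} {G : Graph} {T T' : ℕ} {τ : Fin G.n → ℕ}
    (h : IsSchedule m G T τ) (hT : T ≤ T') : IsSchedule m G T' τ :=
  ⟨fun v => Finset.Icc_subset_Icc_right hT (h.1 v), h.2⟩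

/-- An acyclic graph has a schedule with one job per slot. -/
theorem exists_schedule {m : ℕ} (hm : 1 ≤ m) (G : Graph) (hG : G.Acyclic) :
    ∃ τ, IsSchedule m G G.n τ := by
  set r := rkF G.n (preds (G.code ++ [])) with hr
  have hi : Function.Injective r :=
    rkF_injective _ _ ((length_preds _).trans (nW_code G []))
  have hlt : ∀ u v, r u < r v → (Finset.univ.filter fun x => r x ≤ r u).card <
      (Finset.univ.filter fun x => r x ≤ r v).card := fun u v h =>
    Finset.card_lt_card ⟨fun x hx => by
      simp only [Finset.mem_filter, Finset.mem_univ, true_and] at hx ⊢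
      exact hx.trans h.le, fun h' => by
      have := h' (Finset.mem_filter.2 ⟨Finset.mem_univ v, le_rfl⟩)
      simp only [Finset.mem_filter, Finset.mem_univ, true_and] at this
      exact absurd h (not_lt.2 this)⟩
  refine ⟨fun v => (Finset.univ.filter fun x => r x ≤ r v).card, fun v => ?_, fun t => ?_,
    fun u v h => hlt u v (rkF_lt G hG [] u v ((ltF_iff G [] u v).2 (.single h)))⟩
  · refine Finset.mem_Icc.2 ⟨Finset.card_pos.2 ⟨v, by simp⟩, ?_⟩
    exact (Finset.card_filter_le _ _).trans (by simp)
  · refine le_trans (Finset.card_le_one.2 fun a ha b hb => ?_) hm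
    simp only [Finset.mem_filter, Finset.mem_univ, true_and] at ha hb
    rcases lt_trichotomy (r a) (r b) with h | h | h
    · have := hlt a b h; omega
    · exact hi h
    · have := hlt b a h; omega

theorem IsSchedule.exists_short {m : ℕ} {G : Graph} {T : ℕ} {τ : Fin G.n → ℕ}
    (h : IsSchedule m G T τ) : ∃ τ', IsSchedule m G (min T G.n) τ' := by
  rcases le_total T G.n with hT | hT
  · exact ⟨τ, by rwa [min_eq_left hT]⟩
  · rw [min_eq_right hT]
    rcases Nat.eq_zero_or_pos m with hm | hm
    · refine ⟨τ, fun v => ?_, h.2⟩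
      have h1 := h.2.1 (τ v)
      have h2 : 0 < (Finset.univ.filter fun x => τ x = τ v).card :=
        Finset.card_pos.2 ⟨v, by simp⟩
      omega
    · exact exists_schedule hm G h.acyclic

/-- The structure theorem: every schedule can be replaced by one with a decomposition tree whose
parts are given by terms of depth `K`. -/
def Core (m K : ℕ) : Prop :=
  ∀ (n : ℕ) (lt : Fin n → Fin n → Prop) [DecidableRel lt] (r : Fin n → ℤ),
    (∀ a b c, lt a b → lt b c → lt a c) → Function.Injective r → (∀ u v, lt u v → r u < r v) →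
    ∀ (T : ℕ) (τ : Fin n → ℤ), Sch lt m Finset.univ 0 (T + 1) τ →
      Dec lt m (Term lt r K) Finset.univ T

theorem best_of_schedule {m K : ℕ} (hc : Core m K) {G : Graph} {T : ℕ} {τ : Fin G.n → ℕ}
    (h : IsSchedule m G T τ) (rest : List Bool) :
    ∃ e, best m K (preds (G.code ++ rest)) = some e ∧ e.2.1 ≤ T := by
  obtain ⟨σ, hσ⟩ := h.exists_short
  have hn := (length_preds _).trans (nW_code G rest)
  have hd := hc G.n (ltF G.n (preds (G.code ++ rest))) (rkF G.n (preds (G.code ++ rest)))
    (fun a b c h1 h2 => (ltF_iff G rest a c).2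
      (((ltF_iff G rest a b).1 h1).trans ((ltF_iff G rest b c).1 h2)))
    (rkF_injective _ _ hn) (rkF_lt G h.acyclic rest) (min T G.n) (fun v => (σ v : ℤ))
    ⟨fun v _ => by have := Finset.mem_Icc.1 (hσ.1 v); omega,
      fun v _ => by have := Finset.mem_Icc.1 (hσ.1 v); omega,
      fun i => le_trans (Finset.card_le_card fun v hv => by
        simp only [Finset.mem_filter, Finset.mem_univ, true_and] at hv ⊢
        omega) (hσ.2.1 i.toNat),
      fun u _ v _ huv => by exact_mod_cast hσ.lt_of_transGen ((ltF_iff G rest u v).1 huv)⟩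
  obtain ⟨e, he, hl⟩ := best_complete hn (min_le_right _ _) hd
  exact ⟨e, he, hl.trans (min_le_left _ _)⟩

theorem schedule_of_best {m K : ℕ} {G : Graph} {rest : List Bool} {e : Entry}
    (h : best m K (preds (G.code ++ rest)) = some e) :
    ∃ τ, e.2.2 = List.ofFn τ ∧ IsSchedule m G e.2.1 τ := by
  obtain ⟨h1, h2⟩ := best_sound ((length_preds _).trans (nW_code G rest)) h
  refine ⟨fun i => e.2.2.getD i 0, ?_, fun v => Finset.mem_Icc.2 ⟨h2.pos v (Finset.mem_univ v),
    h2.le v⟩, h2.cap, fun u v huv => h2.mono u (Finset.mem_univ u) v (Finset.mem_univ v)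
      ((ltF_iff G rest u v).2 (.single huv))⟩
  refine ext_getElem (by simp [h1]) fun i hi hi' => ?_
  rw [List.getElem_ofFn, getD_eq_getElem _ _ hi]

theorem decideW_iff {m K : ℕ} (hc : Core m K) (G : Graph) (T : ℕ) :
    decideW m K (G.code ++ T.bits) = true ↔ ∃ τ, IsSchedule m G T τ := by
  unfold decideW
  constructor
  · intro h
    cases e0 : best m K (preds (G.code ++ T.bits)) with
    | none => simp [e0] at h
    | some e =>
      rw [e0] at h
      obtain ⟨τ, -, hτ⟩ := schedule_of_best e0
      exact ⟨τ, hτ.mono (by simpa [lenW_code] using h)⟩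
  · rintro ⟨τ, hτ⟩
    obtain ⟨e, he, hl⟩ := best_of_schedule hc hτ T.bits
    simp [he, lenW_code, hl]

theorem schedW_spec {m K : ℕ} (hc : Core m K) (hm : 1 ≤ m) (G : Graph) (hG : G.Acyclic) :
    ∃ T τ, schedW m K G.code = List.ofFn τ ∧ IsSchedule m G T τ ∧
      ∀ T' τ', IsSchedule m G T' τ' → T ≤ T' := by
  obtain ⟨σ, hσ⟩ := exists_schedule hm G hG
  obtain ⟨e, he, -⟩ := best_of_schedule hc hσ []
  obtain ⟨τ, h1, h2⟩ := schedule_of_best he
  refine ⟨e.2.1, τ, ?_, h2, fun T' τ' h' => ?_⟩
  · rw [append_nil] at he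
    simp [schedW, he, h1]
  · obtain ⟨e', he', hl⟩ := best_of_schedule hc h' []
    rw [he] at he'
    exact (Option.some.inj he') ▸ hl

theorem length_mem_schedW (m K : ℕ) (w : List Bool) : ∀ x ∈ schedW m K w, x ≤ w.length := by
  intro x hx
  unfold schedW at hx
  cases e0 : best m K (preds w) with
  | none => simp [e0] at hx
  | some e =>
    rw [e0] at hx
    have h1 := best_sound rfl e0
    have h2 := (good_of_mem_table rfl (mem_of_find?_eq_some e0)).1
    obtain ⟨i, hi, rfl⟩ := getElem_of_mem hx
    have h3 := h1.2.le ⟨i, h1.1 ▸ hi⟩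
    rw [getD_eq_getElem _ _ hi] at h3
    have h4 : nW w ≤ w.length := (takeWhile_sublist _).length_le
    rw [length_preds] at h2
    omega

/-! ### Turing machines -/

theorem exists_decide_machine {m K : ℕ} (hc : Core m K) :
    ∃ (f : Graph × ℕ → Bool) (M : Turing.TM2ComputableInPolyTime
      (fun x : Graph × ℕ => x.1.code ++ x.2.bits) (fun b : Bool => [b]) f),
      (∀ k, Finite (M.tm.Γ k)) ∧ ∀ G T, f (G, T) = true ↔ ∃ τ, IsSchedule m G T τ := by
  obtain ⟨g, hg, h⟩ : PT ∅ (fun w : Raw => decideW m K w.w) :=
    (pt_decideW m K).comp (PT.listOfRaw PT.id)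
  obtain ⟨M, hM⟩ := exists_tm2_of_polyTimeFun (fun x : Graph × ℕ => x.1.code ++ x.2.bits)
    (fun b : Bool => [b]) (fun x => decideW m K (x.1.code ++ x.2.bits)) g (polyTimeFun_iff.2 hg)
    fun x => h ⟨_⟩
  exact ⟨_, M, hM, fun G T => decideW_iff hc G T⟩

theorem exists_schedule_machine {m K : ℕ} (hc : Core m K) (hm : 1 ≤ m) :
    ∃ (g : Graph → List ℕ) (M : Turing.TM2ComputableInPolyTime Graph.code
      (fun l : List ℕ => l.flatMap unary) g),
      (∀ k, Finite (M.tm.Γ k)) ∧ ∀ G : Graph, G.Acyclic → ∃ T τ, g G = List.ofFn τ ∧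
        IsSchedule m G T τ ∧ ∀ T' τ', IsSchedule m G T' τ' → T ≤ T' := by
  have h0 : PT ∅ (fun w : List Bool => (schedW m K w).flatMap fun x => unary (min x w.length)) :=
    PT.flatMap (f := fun (w : List Bool) x => unary (min x w.length)) (pt_schedW m K)
      ((PT.replicate (PT.min PT.snd' PT.fst'.length)
        ((PBd.length (A := ∅) PT.fst').mono fun p => min_le_right _ _) (PT.const true)).append
        (PT.const [false]))
  have h1 : PT ∅ (fun w : List Bool => (schedW m K w).flatMap unary) :=
    h0.congr fun w => flatMap_congr fun x hx => by rw [min_eq_left (length_mem_schedW m K w x hx)]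
  obtain ⟨g, hg, h⟩ : PT ∅ (fun w : Raw => Raw.mk ((schedW m K w.w).flatMap unary)) :=
    PT.rawOfList (h1.comp (PT.listOfRaw PT.id))
  obtain ⟨M, hM⟩ := exists_tm2_of_polyTimeFun Graph.code (fun l : List ℕ => l.flatMap unary)
    (fun G => schedW m K G.code) g (polyTimeFun_iff.2 hg) fun G => h ⟨_⟩
  exact ⟨_, M, hM, fun G hG => schedW_spec hc hm G hG⟩

end Vale.Agent.P324
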